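import Vale.Agent.P214.FM.MS

/-!
# P214, block FM: the real functions of one window

`gF = t^{2-m} ∫ K e_Σ`, `aF = 2 t² (MF - Q MSf)` (area excess).
* `CylF.FSig_kern`, `CylF.two_FSig` : `2 t^{2-m} F_Σ(K) = aF - gF`;
* `CylF.hasDerivAt_aF` : exact ODE of the area excess;
* `CylF.FSig_tau` : `F_Σ(K τ) = c F_Σ(K) - F_Σ(K (c - τ))`;
* `CylF.mono_HF`, `HF_nonneg`, `HF_pos`, `bF_nonneg`.
-/

open Set Filter Topology MeasureTheory Metric
open scoped RealInnerProductSpace ContDiff

set_option linter.all false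

namespace Vale.Agent.P214.FM

open FV ODE

variable {E : Type*} [NormedAddCommGroup E] [InnerProductSpace ℝ E] [FiniteDimensional ℝ E]
  [MeasurableSpace E] [BorelSpace E]

/-- tilt against the reference graph -/
noncomputable def eP (T : Submodule ℝ E) (w : E → E) (P : E → E →L[ℝ] E) (Y : E) : ℝ :=
  eS T w Y (P Y)

/-- kernel tilt `t^{2-m} ∫ K e_Σ` -/
noncomputable def gF (m : ℕ) (T : Submodule ℝ E) (w : E → E) (z : E) (K : ℝ → ℝ)
    (P : E → E →L[ℝ] E) (ν : Measure E) (t : ℝ) : ℝ :=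
  t ^ (2 - (m : ℤ)) * kI T w z ν K (eP T w P) t

/-- area excess `2 t² (MF - Q MSf)` -/
noncomputable def aF (m Q : ℕ) (T : Submodule ℝ E) (w : E → E) (z : E) (K : ℝ → ℝ)
    (ν : Measure E) (t : ℝ) : ℝ :=
  2 * t ^ 2 * (MF m T w z K ν t - Q * MSf m T w z K t)

section

variable {m Q : ℕ} {T : Submodule ℝ E} {w : E → E} {ε κ h₁ : ℝ} {G : Set E} {h : ℝ}
  {ν : Measure E} {P : E → E →L[ℝ] E} {z : E} {k k' K : ℝ → ℝ} {t R : ℝ}

lemma Ref.be_base (hw : Ref T w ε κ) (z : E) (t : ℝ) (Y : E) :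
    be T w z t (T.starProjection Y) = be T w z t Y := by
  unfold be vp gm nX sg J0 D0
  rw [hw.XX_base, hw.PS_base, hw.fderiv_base, Ref.bx_base]

lemma fderiv_of_base {F : Type*} [NormedAddCommGroup F] [NormedSpace ℝ F] {f : E → F}
    (hf : Differentiable ℝ f) (hb : ∀ y, f (T.starProjection y) = f y) (Y : E) :
    fderiv ℝ f (T.starProjection Y) = fderiv ℝ f Y := by
  have h1 : ∀ y, fderiv ℝ f y = (fderiv ℝ f (T.starProjection y)).comp T.starProjection := by
    intro y
    have h2 : HasFDerivAt (fun y => f (T.starProjection y))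
        ((fderiv ℝ f (T.starProjection y)).comp T.starProjection) y :=
      (hf _).hasFDerivAt.comp y T.starProjection.hasFDerivAt
    have h3 : (fun y => f (T.starProjection y)) = f := funext hb
    rw [h3] at h2
    exact h2.fderiv
  have h2 := h1 (T.starProjection Y)
  rw [star_self] at h2
  rw [h2]
  exact (h1 Y).symm

lemma Ref.tau_base (hw : Ref T w ε κ) (hε : ε ≤ 1 / 16) (z : E) (ht : 0 < t) (Y : E) :
    tau m T w z t (T.starProjection Y) = tau m T w z t Y := by
  unfold tau ODEF.divg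
  rw [fderiv_of_base ((hw.contDiff_be hε z ht).differentiable (by simp)) (hw.be_base z t),
    hw.be_base, hw.fderiv_base, hw.D2_base]

section cyl

variable (H : Adm T w ε κ h₁) (hC : CylF m T w h₁ G h ν P)

include H hC

lemma CylF.gd_eP (hR : 0 ≤ R) (hG : BallIn T G z R) : Gd (aX T w z) ν R (eP T w P) := by
  have h1 : eP T w P = fun Y => tr ((ContinuousLinearMap.id ℝ E - PS T w Y).comp (P Y)) := by
    funext Y; rfl
  rw [h1]
  exact ((hC.gd H.ref hR hG (continuous_const.sub H.ref.contDiff_PS.continuous)).comp hC.gdP).tr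

omit H in
lemma CylF.eP_nonneg : ∀ᵐ Y ∂ν, 0 ≤ eP T w P Y := by
  filter_upwards [hC.proj] with Y hY
  obtain ⟨S, -, hS⟩ := hY
  unfold eP eS
  rw [hS]; exact tilt_nonneg _ _

/-- **`F_Σ` of kernel functions** -/
lemma CylF.FSig_kern {ψ : ℝ → ℝ} (hc : Continuous ψ) (hz : ∀ s, 1 ≤ s → ψ s = 0) {f : E → ℝ}
    (hf : Continuous f) (hfb : ∀ y, f (T.starProjection y) = f y) (ht : 0 < t)
    (hG : BallIn T G z t) :
    FSig m Q T w ν P (fun x => ψ (aX T w z x / t ^ 2) * f x) =
      kI T w z ν ψ f t - kI T w z ν ψ (fun Y => f Y * eP T w P Y) t / 2 -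
        Q * ∫ x in (T : Set E), ψ (aX T w z x / t ^ 2) * (f x * areaEl w x) ∂μH[m] := by
  have g1 : Gd (aX T w z) ν t f := hC.gd H.ref ht.le hG hf
  have g2 := g1.mul (hC.gd_eP H ht.le hG)
  unfold FSig
  congr 1
  · have h1 : kI T w z ν ψ f t - kI T w z ν ψ (fun Y => f Y * eP T w P Y) t / 2 =
        kI T w z ν ψ (fun Y => f Y - (1 / 2) * (f Y * eP T w P Y)) t := by
      have g3 : Gd (aX T w z) ν t (fun Y => (1 / 2 : ℝ)) := Gd.const _
      rw [hC.kI_sub H g1 (g3.mul g2) hc hz ht le_rfl, kI_const_mul]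
      ring
    rw [h1]
    unfold kI
    refine integral_congr_ae (Eventually.of_forall fun Y => ?_)
    simp only [hfb, H.ref.aX_base]
    unfold eP
    ring
  · congr 1
    refine integral_congr_ae (Eventually.of_forall fun x => ?_)
    ring

/-- the area excess is `g + 2 t^{2-m} F_Σ(K)` -/
theorem CylF.aF_eq (hk : Kern k k' K) (ht : 0 < t) (hG : BallIn T G z t) :
    aF m Q T w z K ν t = gF m T w z K P ν t +
      2 * t ^ (2 - (m : ℤ)) * FSig m Q T w ν P (fun x => K (aX T w z x / t ^ 2)) := by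
  have h1 := hC.FSig_kern H (Q := Q) hk.pK.continuous hk.pK.zero (f := fun _ => (1:ℝ))
    continuous_const (fun _ => rfl) ht hG
  simp only [mul_one, one_mul] at h1
  rw [h1]
  unfold aF gF MF MSf
  have h2 : t ^ (2 - (m : ℤ)) = t ^ 2 * t ^ (-(m : ℤ)) := by
    rw [sub_eq_add_neg, zpow_add₀ ht.ne']; rfl
  rw [h2]
  ring

omit H in
/-- the exact ODE of the area excess -/
theorem CylF.hasDerivAt_aF (H : Adm T w ε κ h₁) (hk : Kern k k' K) (ht : 0 < t)
    (hG : BallIn T G z t) :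
    HasDerivAt (aF m Q T w z K ν)
      (t⁻¹ * (2 * (aF m Q T w z K ν t - gF m T w z K P ν t) +
        2 * t ^ (-(m : ℤ)) * kI T w z ν k (radF T w h₁ z t P) t +
        2 * t ^ (2 - (m : ℤ)) * (kI T w z ν K
          (fun Y => divF m T w h₁ z t P Y - (tau m T w z t Y - eP T w P Y)) t +
          kI T w z ν K (fun Y => tau m T w z t Y * eP T w P Y) t / 2 +
          FSig m Q T w ν P (fun x => K (aX T w z x / t ^ 2) * tau m T w z t x)))) t := by
  have h1 := hC.mass_ode H hk ht hG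
  have h2 := H.ref.hasDerivAt_MSf (z := z) H.eps_le hC.dimT hk ht
  have h3 : HasDerivAt (fun t : ℝ => 2 * t ^ 2) (2 * (2 * t)) t := by
    simpa using (hasDerivAt_pow 2 t).const_mul 2
  have h4 : HasDerivAt (aF m Q T w z K ν) _ t := h3.mul (h1.sub (h2.const_mul (Q : ℝ)))
  refine h4.congr_deriv ?_
  have gtau : Gd (aX T w z) ν t (tau m T w z t) :=
    hC.gd H.ref ht.le hG (H.ref.continuous_tau H.eps_le z ht)
  have gdiv : Gd (aX T w z) ν t (divF m T w h₁ z t P) :=
    (hC.gd_trJ H ht.le hG ((H.ref.contDiff_ze H.eps_le z ht).of_le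
      (WithTop.coe_le_coe.2 le_top))).sub (Gd.const _)
  have ge := hC.gd_eP H ht.le hG (z := z)
  have h5 := hC.FSig_kern H (Q := Q) hk.pK.continuous hk.pK.zero
    (H.ref.continuous_tau (m := m) H.eps_le z ht) (H.ref.tau_base H.eps_le z ht) ht hG
  rw [hC.kI_sub H gdiv (gtau.sub ge) hk.pK.continuous hk.pK.zero ht le_rfl,
    hC.kI_sub H gtau ge hk.pK.continuous hk.pK.zero ht le_rfl, h5]
  have h6 : t ^ (2 - (m : ℤ)) = t ^ 2 * t ^ (-(m : ℤ)) := by
    rw [sub_eq_add_neg, zpow_add₀ ht.ne']; rfl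
  unfold aF gF
  rw [h6]
  simp only [mul_comm (tau m T w z t _) (areaEl w _)]
  field_simp
  ring

/-- splitting of `F_Σ(K τ)` -/
theorem CylF.FSig_tau (hk : Kern k k' K) (ht : 0 < t) (hG : BallIn T G z t) (c : ℝ) :
    FSig m Q T w ν P (fun x => K (aX T w z x / t ^ 2) * tau m T w z t x) =
      c * FSig m Q T w ν P (fun x => K (aX T w z x / t ^ 2)) -
        FSig m Q T w ν P (fun x => K (aX T w z x / t ^ 2) * (c - tau m T w z t x)) := by
  have hct := H.ref.continuous_tau (m := m) H.eps_le z ht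
  have hcb := H.ref.tau_base (m := m) H.eps_le z ht
  have h1 := hC.FSig_kern H (Q := Q) hk.pK.continuous hk.pK.zero (f := fun _ => (1:ℝ))
    continuous_const (fun _ => rfl) ht hG
  have h2 := hC.FSig_kern H (Q := Q) hk.pK.continuous hk.pK.zero hct hcb ht hG
  have h3 := hC.FSig_kern H (Q := Q) hk.pK.continuous hk.pK.zero (f := fun Y => c - tau m T w z t Y)
    (continuous_const.sub hct) (fun y => by rw [hcb]) ht hG
  have gc : Gd (aX T w z) ν t (fun _ => c) := Gd.const _
  have g1 : Gd (aX T w z) ν t (fun _ => (1:ℝ)) := Gd.const _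
  have gtau : Gd (aX T w z) ν t (tau m T w z t) := hC.gd H.ref ht.le hG hct
  have ge := hC.gd_eP H ht.le hG (z := z)
  have e1 : kI T w z ν K (fun Y => c - tau m T w z t Y) t =
      c * kI T w z ν K (fun _ => 1) t - kI T w z ν K (tau m T w z t) t := by
    rw [hC.kI_sub H gc gtau hk.pK.continuous hk.pK.zero ht le_rfl, ← kI_const_mul]
    simp only [mul_one]
  have e2 : kI T w z ν K (fun Y => (c - tau m T w z t Y) * eP T w P Y) t =
      c * kI T w z ν K (fun Y => 1 * eP T w P Y) t -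
        kI T w z ν K (fun Y => tau m T w z t Y * eP T w P Y) t := by
    rw [← kI_const_mul, ← hC.kI_sub H (gc.mul (g1.mul ge)) (gtau.mul ge) hk.pK.continuous hk.pK.zero ht le_rfl]
    exact kI_congr hk.pK.zero ht (Eventually.of_forall fun Y _ => by ring)
  have hga := H.ref.contDiff_areaEl.continuous
  have e3 : ∫ x in (T : Set E), K (aX T w z x / t ^ 2) * ((c - tau m T w z t x) * areaEl w x) ∂μH[m] =
      c * (∫ x in (T : Set E), K (aX T w z x / t ^ 2) * (1 * areaEl w x) ∂μH[m]) -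
        ∫ x in (T : Set E), K (aX T w z x / t ^ 2) * (tau m T w z t x * areaEl w x) ∂μH[m] := by
    rw [← integral_const_mul, ← integral_sub]
    · refine integral_congr_ae (Eventually.of_forall fun x => ?_)
      ring
    · exact (H.ref.integrableOn_kern hC.dimT hk.pK.continuous hk.pK.zero
        (continuous_const.mul hga) ht).const_mul c
    · exact H.ref.integrableOn_kern hC.dimT hk.pK.continuous hk.pK.zero (hct.mul hga) ht
  simp only [mul_one] at h1
  rw [h1, h2, h3, e1, e2, e3]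
  ring

lemma CylF.HF_nonneg (hk : Kern k k' K) (ht : 0 < t) : 0 ≤ HF m T w z k ν t := by
  unfold HF kI
  refine mul_nonneg (by positivity) (integral_nonneg fun Y => ?_)
  have h1 := H.ref.half_le_vp H.eps_le z Y
  have h2 := hk.nonneg (aX T w z Y / t ^ 2)
  show 0 ≤ k _ * (vp T w z Y * ‖om T w Y‖ ^ 2)
  positivity

lemma CylF.bF_nonneg (hk : Kern k k' K) (ht : 0 < t) : 0 ≤ bF m T w h₁ z k P ν t := by
  unfold bF kI
  refine mul_nonneg (by positivity) (integral_nonneg fun Y => ?_)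
  have h1 := H.ref.half_le_vp H.eps_le z Y
  have h2 := hk.nonneg (aX T w z Y / t ^ 2)
  show 0 ≤ k _ * ((vp T w z Y)⁻¹ * _)
  positivity

lemma CylF.gF_nonneg (hk : Kern k k' K) (ht : 0 < t) : 0 ≤ gF m T w z K P ν t := by
  unfold gF kI
  refine mul_nonneg (by positivity) (integral_nonneg_of_ae ?_)
  filter_upwards [hC.eP_nonneg] with Y hY
  have h2 := hk.K_nonneg (aX T w z Y / t ^ 2)
  show 0 ≤ K _ * eP T w P Y
  positivity

lemma CylF.gd_HF (hR : 0 ≤ R) (hG : BallIn T G z R) :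
    Gd (aX T w z) ν R (fun Y => vp T w z Y * ‖om T w Y‖ ^ 2) :=
  (hC.gd_vp H).mul ((hC.gd H.ref hR hG H.ref.contDiff_om.continuous).norm.pow 2)

/-- monotonicity of the unnormalised height -/
lemma CylF.mono_HF (hk : Kern k k' K) (ha : AntitoneOn k (Ici 0)) {x : ℝ} (hx : 0 < x) (hxt : x ≤ t)
    (hG : BallIn T G z t) : x ^ m * HF m T w z k ν x ≤ t ^ m * HF m T w z k ν t := by
  have ht : 0 < t := hx.trans_le hxt
  have g := hC.gd_HF H ht.le hG
  have e : ∀ s : ℝ, 0 < s → s ^ m * HF m T w z k ν s =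
      kI T w z ν k (fun Y => vp T w z Y * ‖om T w Y‖ ^ 2) s := by
    intro s hs
    unfold HF
    rw [← mul_assoc, ← zpow_natCast, ← zpow_add₀ hs.ne']
    simp
  rw [e x hx, e t ht]
  unfold kI
  refine integral_mono (hC.intg H g hk.pk.continuous hk.pk.zero hx hxt)
    (hC.intg H g hk.pk.continuous hk.pk.zero ht le_rfl) fun Y => ?_
  have h1 := H.ref.half_le_vp H.eps_le z Y
  have h0 : 0 ≤ aX T w z Y := aX_nonneg Y
  have h2 : k (aX T w z Y / x ^ 2) ≤ k (aX T w z Y / t ^ 2) := by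
    refine ha ?_ ?_ ?_
    · exact div_nonneg h0 (by positivity)
    · exact div_nonneg h0 (by positivity)
    · gcongr
  show k _ * (vp T w z Y * ‖om T w Y‖ ^ 2) ≤ k _ * (vp T w z Y * ‖om T w Y‖ ^ 2)
  gcongr

/-- `om` vanishes only on the graph -/
lemma CylF.HF_pos (hk : Kern k k' K) (hkp : ∀ s, 0 ≤ s → s < 1 → 0 < k s) (ht : 0 < t)
    (hG : BallIn T G z t) (hν : ν {Y | aX T w z Y < t ^ 2 ∧ co T Y ≠ 0} ≠ 0) :
    0 < HF m T w z k ν t := by
  have g := hC.gd_HF H ht.le hG
  have hi := hC.intg H g hk.pk.continuous hk.pk.zero ht le_rfl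
  unfold HF kI
  refine mul_pos (by positivity) ?_
  rw [integral_pos_iff_support_of_nonneg ?_ hi]
  · refine (pos_iff_ne_zero.2 hν).trans_le (measure_mono ?_)
    rintro Y ⟨h1, h2⟩
    have h3 := hkp (aX T w z Y / t ^ 2) (div_nonneg (aX_nonneg Y) (by positivity))
      (by rw [div_lt_one (by positivity)]; exact h1)
    have h4 := H.ref.half_le_vp H.eps_le z Y
    have h5 : om T w Y ≠ 0 := by
      intro h6
      have h7 : co T (om T w Y) = co T Y := by
        unfold om
        rw [map_sub, co_self, H.ref.co_adj_fderiv, sub_zero]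
      rw [h6, map_zero] at h7
      exact h2 h7.symm
    have h6 : 0 < ‖om T w Y‖ := norm_pos_iff.2 h5
    show k (aX T w z Y / t ^ 2) * (vp T w z Y * ‖om T w Y‖ ^ 2) ≠ 0
    positivity
  · intro Y
    have h1 := H.ref.half_le_vp H.eps_le z Y
    have h2 := hk.nonneg (aX T w z Y / t ^ 2)
    show 0 ≤ k _ * (vp T w z Y * ‖om T w Y‖ ^ 2)
    positivity

end cyl

end

end Vale.Agent.P214.FM
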