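import Vale.Agent.P214.FM.Ident

/-!
# P214, block FM: the exact ODEs in Fermi coordinates

`jF = t^{2-m} ∫ K tr(D om J P)`, `bF = t^{-m} ∫ k vp⁻¹ |rh - P rh|²`, `HF = t^{-m} ∫ k vp |om|²`,
`MF = t^{-m} ∫ K`.
* `CylF.outer`    : `jF = t^{-m} ∫ k ⟪rh, P om⟫ = - t^{-m} ∫ k ⟪rh - P rh, om - P om⟫`;
* `CylF.cs`       : `jF² ≤ bF HF`;
* `CylF.mass_ode`, `CylF.height_ode`.
-/

open Set Filter Topology MeasureTheory Metric
open scoped RealInnerProductSpace ContDiff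

set_option linter.all false

namespace Vale.Agent.P214.FM

open FV ODE

variable {E : Type*} [NormedAddCommGroup E] [InnerProductSpace ℝ E] [FiniteDimensional ℝ E]
  [MeasurableSpace E] [BorelSpace E]

/-- `tr (DZ ∘ J ∘ P)` -/
noncomputable def trJ (T : Submodule ℝ E) (w : E → E) (h₁ : ℝ) (P : E → E →L[ℝ] E) (Z : E → E)
    (Y : E) : ℝ := tr (((fderiv ℝ Z Y).comp (Jm T w h₁ Y)).comp (P Y))

/-- the kernel integral -/
noncomputable def kI (T : Submodule ℝ E) (w : E → E) (z : E) (ν : Measure E) (ψ : ℝ → ℝ)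
    (f : E → ℝ) (t : ℝ) : ℝ := ∫ Y, ψ (aX T w z Y / t ^ 2) * f Y ∂ν

noncomputable def jF (m : ℕ) (T : Submodule ℝ E) (w : E → E) (h₁ : ℝ) (z : E) (K : ℝ → ℝ)
    (P : E → E →L[ℝ] E) (ν : Measure E) (t : ℝ) : ℝ :=
  t ^ (2 - (m : ℤ)) * kI T w z ν K (trJ T w h₁ P (om T w)) t

noncomputable def bF (m : ℕ) (T : Submodule ℝ E) (w : E → E) (h₁ : ℝ) (z : E) (k : ℝ → ℝ)
    (P : E → E →L[ℝ] E) (ν : Measure E) (t : ℝ) : ℝ :=
  t ^ (-(m : ℤ)) * kI T w z ν k
    (fun Y => (vp T w z Y)⁻¹ * ‖rh T w h₁ z Y - P Y (rh T w h₁ z Y)‖ ^ 2) t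

noncomputable def HF (m : ℕ) (T : Submodule ℝ E) (w : E → E) (z : E) (k : ℝ → ℝ)
    (ν : Measure E) (t : ℝ) : ℝ :=
  t ^ (-(m : ℤ)) * kI T w z ν k (fun Y => vp T w z Y * ‖om T w Y‖ ^ 2) t

noncomputable def MF (m : ℕ) (T : Submodule ℝ E) (w : E → E) (z : E) (K : ℝ → ℝ)
    (ν : Measure E) (t : ℝ) : ℝ := t ^ (-(m : ℤ)) * kI T w z ν K (fun _ => 1) t

/-- `tr(D ze J P) - m` -/
noncomputable def divF (m : ℕ) (T : Submodule ℝ E) (w : E → E) (h₁ : ℝ) (z : E) (t : ℝ)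
    (P : E → E →L[ℝ] E) (Y : E) : ℝ := trJ T w h₁ P (ze T w z t) Y - m

/-- `⟪rh - P rh, ze - P ze⟫` -/
noncomputable def radF (T : Submodule ℝ E) (w : E → E) (h₁ : ℝ) (z : E) (t : ℝ)
    (P : E → E →L[ℝ] E) (Y : E) : ℝ :=
  ⟪rh T w h₁ z Y - P Y (rh T w h₁ z Y), ze T w z t Y - P Y (ze T w z t Y)⟫

section

variable {m : ℕ} {T : Submodule ℝ E} {w : E → E} {ε κ h₁ : ℝ} {G : Set E} {h : ℝ}
  {ν : Measure E} {P : E → E →L[ℝ] E} {z : E} {k k' K : ℝ → ℝ} {t R : ℝ}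

/-- orthogonal splitting -/
lemma inner_split (S : Submodule ℝ E) (a b : E) : ⟪a, S.starProjection b⟫ = ⟪a, b⟫ -
    ⟪a - S.starProjection a, b - S.starProjection b⟫ := by
  have h2 : ⟪a - S.starProjection a, b - S.starProjection b⟫ = ⟪a, co S b⟫ := by
    show ⟪co S a, co S b⟫ = _
    rw [inner_co, co_self]
  rw [h2, co_apply, inner_sub_right]
  ring

lemma CylF.inner_split (hC : CylF m T w h₁ G h ν P) (a b : E → E) : ∀ᵐ Y ∂ν,
    ⟪a Y, P Y (b Y)⟫ = ⟪a Y, b Y⟫ - ⟪a Y - P Y (a Y), b Y - P Y (b Y)⟫ := by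
  filter_upwards [hC.proj] with Y hY
  obtain ⟨S, -, hS⟩ := hY
  rw [hS]; exact Vale.Agent.P214.FM.inner_split S _ _

variable (H : Adm T w ε κ h₁) (hC : CylF m T w h₁ G h ν P)

include H hC

lemma CylF.gd_trJ (hR : 0 ≤ R) (hG : BallIn T G z R) {Z : E → E} (hZ : ContDiff ℝ 1 Z) :
    Gd (aX T w z) ν R (trJ T w h₁ P Z) :=
  ((hC.gd H.ref hR hG (hZ.continuous_fderiv (by norm_num))).comp
    (hC.gd H.ref hR hG H.contDiff_Jm.continuous) |>.comp hC.gdP).tr

lemma CylF.gd_innerP (hR : 0 ≤ R) (hG : BallIn T G z R) {a b : E → E} (ha : Continuous a)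
    (hb : Continuous b) : Gd (aX T w z) ν R (fun Y => ⟪a Y, P Y (b Y)⟫) :=
  (hC.gd H.ref hR hG ha).inner (hC.gdP.clm_apply (hC.gd H.ref hR hG hb))

lemma CylF.gd_perp (hR : 0 ≤ R) (hG : BallIn T G z R) {a : E → E} (ha : Continuous a) :
    Gd (aX T w z) ν R (fun Y => a Y - P Y (a Y)) :=
  (hC.gd H.ref hR hG ha).sub (hC.gdP.clm_apply (hC.gd H.ref hR hG ha))

lemma CylF.gd_vp {a : E → ℝ} : Gd a ν R (vp T w z) := by
  refine ⟨?_, 1, zero_le_one, Eventually.of_forall fun Y _ => ?_⟩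
  · have h1 : Measurable (vp T w z) := by
      unfold vp
      exact measurable_const.sub
        (((H.ref.contDiff_nX z).continuous.norm.pow 2).measurable.div
          ((H.ref.contDiff_XX z).continuous.norm.pow 2).measurable)
    exact h1.aestronglyMeasurable
  · have h1 := H.ref.half_le_vp H.eps_le z Y
    have h2 : vp T w z Y ≤ 1 := Ref.vp_le_one z Y
    rw [Real.norm_eq_abs, abs_of_nonneg (by linarith)]
    exact h2

lemma CylF.gd_vp_inv {a : E → ℝ} : Gd a ν R (fun Y => (vp T w z Y)⁻¹) := by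
  refine ⟨(hC.gd_vp H (a := a) (R := R)).meas.aemeasurable.inv.aestronglyMeasurable, 2,
    by norm_num, Eventually.of_forall fun Y _ => ?_⟩
  have h1 := H.ref.half_le_vp H.eps_le z Y
  rw [Real.norm_eq_abs, abs_of_nonneg (by positivity)]
  rw [inv_le_comm₀ (by linarith) (by norm_num)]
  linarith

/-- integrability of `K f` and `k f`, `k' f` -/
lemma CylF.intg {f : E → ℝ} (hf : Gd (aX T w z) ν R f) {ψ : ℝ → ℝ} (hc : Continuous ψ)
    (hz : ∀ s, 1 ≤ s → ψ s = 0) (ht : 0 < t) (htR : t ≤ R) :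
    Integrable (fun Y => ψ (aX T w z Y / t ^ 2) * f Y) ν := by
  haveI := hC.fin
  exact hf.integrable hc hz (H.ref.continuous_aX z).aestronglyMeasurable (fun _ => aX_nonneg _) ht htR

/-- linearity of the kernel integral -/
lemma CylF.kI_add {f g : E → ℝ} (hf : Gd (aX T w z) ν R f) (hg : Gd (aX T w z) ν R g) {ψ : ℝ → ℝ}
    (hc : Continuous ψ) (hz : ∀ s, 1 ≤ s → ψ s = 0) (ht : 0 < t) (htR : t ≤ R) :
    kI T w z ν ψ (fun Y => f Y + g Y) t = kI T w z ν ψ f t + kI T w z ν ψ g t := by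
  unfold kI
  rw [← integral_add (hC.intg H hf hc hz ht htR) (hC.intg H hg hc hz ht htR)]
  exact integral_congr_ae (Eventually.of_forall fun Y => by ring)

omit H hC in
lemma kI_const_mul (c : ℝ) {f : E → ℝ} {ψ : ℝ → ℝ} :
    kI T w z ν ψ (fun Y => c * f Y) t = c * kI T w z ν ψ f t := by
  unfold kI
  rw [← integral_const_mul]
  exact integral_congr_ae (Eventually.of_forall fun Y => by ring)

lemma CylF.kI_sub {f g : E → ℝ} (hf : Gd (aX T w z) ν R f) (hg : Gd (aX T w z) ν R g) {ψ : ℝ → ℝ}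
    (hc : Continuous ψ) (hz : ∀ s, 1 ≤ s → ψ s = 0) (ht : 0 < t) (htR : t ≤ R) :
    kI T w z ν ψ (fun Y => f Y - g Y) t = kI T w z ν ψ f t - kI T w z ν ψ g t := by
  unfold kI
  rw [← integral_sub (hC.intg H hf hc hz ht htR) (hC.intg H hg hc hz ht htR)]
  exact integral_congr_ae (Eventually.of_forall fun Y => by ring)

omit H hC in
/-- a.e. equality where the kernel does not vanish -/
lemma kI_congr {f g : E → ℝ} {ψ : ℝ → ℝ} (hz : ∀ s, 1 ≤ s → ψ s = 0) (ht : 0 < t)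
    (hfg : ∀ᵐ Y ∂ν, aX T w z Y < t ^ 2 → f Y = g Y) :
    kI T w z ν ψ f t = kI T w z ν ψ g t := by
  unfold kI
  refine integral_congr_ae ?_
  filter_upwards [hfg] with Y hY
  by_cases h1 : aX T w z Y < t ^ 2
  · simp only [hY h1]
  · have : 1 ≤ aX T w z Y / t ^ 2 := by
      rw [one_le_div (by positivity)]; exact not_lt.1 h1
    simp only [hz _ this, zero_mul]

/-- the radial identity in terms of kernel integrals -/
theorem CylF.radial' {ψ ψ' : ℝ → ℝ} (hψ : Profile ψ ψ') {Z : E → E} (hZ : ContDiff ℝ 1 Z)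
    (ht : 0 < t) (hG : BallIn T G z t) :
    kI T w z ν ψ (trJ T w h₁ P Z) t =
      -(2 / t ^ 2) * kI T w z ν ψ' (fun Y => ⟪rh T w h₁ z Y, P Y (Z Y)⟫) t := by
  have h1 := hC.radial H.ref hψ hZ ht hG
  have i1 := hC.intg H (hC.gd_trJ H ht.le hG hZ) hψ.continuous hψ.zero ht le_rfl
  have i2 := hC.intg H (hC.gd_innerP H ht.le hG (H.contDiff_rh z).continuous hZ.continuous) hψ.cont
    (fun s hs => hψ.zero' hs) ht le_rfl
  have h2 : ∫ Y, (ψ (aX T w z Y / t ^ 2) * trJ T w h₁ P Z Y +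
      (2 / t ^ 2) * (ψ' (aX T w z Y / t ^ 2) * ⟪rh T w h₁ z Y, P Y (Z Y)⟫)) ∂ν = 0 := by
    rw [← h1]
    refine integral_congr_ae (Eventually.of_forall fun Y => ?_)
    simp only [trJ]
    ring
  rw [integral_add i1 (i2.const_mul _), integral_const_mul] at h2
  unfold kI
  linarith

/-- with the kernel `K` -/
theorem CylF.radialK (hk : Kern k k' K) {Z : E → E} (hZ : ContDiff ℝ 1 Z)
    (ht : 0 < t) (hG : BallIn T G z t) :
    kI T w z ν K (trJ T w h₁ P Z) t =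
      t⁻¹ ^ 2 * kI T w z ν k (fun Y => ⟪rh T w h₁ z Y, P Y (Z Y)⟫) t := by
  rw [hC.radial' H hk.pK hZ ht hG]
  have : kI T w z ν (fun s => -(k s) / 2) (fun Y => ⟪rh T w h₁ z Y, P Y (Z Y)⟫) t =
      (-1 / 2) * kI T w z ν k (fun Y => ⟪rh T w h₁ z Y, P Y (Z Y)⟫) t := by
    unfold kI
    rw [← integral_const_mul]
    exact integral_congr_ae (Eventually.of_forall fun Y => by ring)
  rw [this]
  field_simp

/-- **Outer variation**, exact. -/
theorem CylF.outer (hk : Kern k k' K) (ht : 0 < t) (hG : BallIn T G z t) :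
    jF m T w h₁ z K P ν t =
      t ^ (-(m : ℤ)) * kI T w z ν k (fun Y => ⟪rh T w h₁ z Y, P Y (om T w Y)⟫) t := by
  unfold jF
  rw [hC.radialK H hk (H.ref.contDiff_om.of_le (WithTop.coe_le_coe.2 le_top)) ht hG]
  have e3 : t ^ (2 - (m : ℤ)) = t ^ 2 * t ^ (-(m : ℤ)) := by
    rw [show (2 - (m : ℤ)) = 2 + (-(m : ℤ)) by ring, zpow_add₀ ht.ne']
    norm_cast
  rw [e3]
  field_simp

theorem CylF.outer' (hk : Kern k k' K) (ht : 0 < t) (hG : BallIn T G z t) :
    jF m T w h₁ z K P ν t = -(t ^ (-(m : ℤ)) * kI T w z ν k (fun Y =>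
      ⟪rh T w h₁ z Y - P Y (rh T w h₁ z Y), om T w Y - P Y (om T w Y)⟫) t) := by
  rw [hC.outer H hk ht hG]
  have : kI T w z ν k (fun Y => ⟪rh T w h₁ z Y, P Y (om T w Y)⟫) t =
      kI T w z ν k (fun Y => (-1) *
        ⟪rh T w h₁ z Y - P Y (rh T w h₁ z Y), om T w Y - P Y (om T w Y)⟫) t := by
    refine kI_congr hk.pk.zero ht ?_
    filter_upwards [hC.inner_split (rh T w h₁ z) (om T w), hC.slab_lt H.ref ht.le hG] with Y h1 h2 h3
    rw [h1, H.inner_rh_om (h2 h3).2]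
    ring
  rw [this, kI_const_mul]
  ring

/-- **Cauchy-Schwarz**, exact. -/
theorem CylF.cs (hk : Kern k k' K) (ht : 0 < t) (hG : BallIn T G z t) :
    jF m T w h₁ z K P ν t ^ 2 ≤ bF m T w h₁ z k P ν t * HF m T w z k ν t := by
  haveI := hC.fin
  have hcr := (H.contDiff_rh z).continuous
  have hco := H.ref.contDiff_om.continuous
  have g0 := hC.gd_vp H (a := aX T w z) (R := t) (z := z)
  have g0' := hC.gd_vp_inv H (a := aX T w z) (R := t) (z := z)
  have g1 := hC.gd_perp H ht.le hG hcr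
  have g2 := hC.gd H.ref ht.le hG hco
  have hkc := hk.pk.continuous
  -- with `u = |rh - P rh| / √vp`, `v = √vp |om|`
  set u : E → ℝ := fun Y => (√(vp T w z Y))⁻¹ * ‖rh T w h₁ z Y - P Y (rh T w h₁ z Y)‖ with hu
  set v : E → ℝ := fun Y => √(vp T w z Y) * ‖om T w Y‖ with hv
  have hvp : ∀ Y, 0 < vp T w z Y := fun Y => by
    have := H.ref.half_le_vp H.eps_le z Y; linarith
  have eu : ∀ Y, u Y ^ 2 = (vp T w z Y)⁻¹ * ‖rh T w h₁ z Y - P Y (rh T w h₁ z Y)‖ ^ 2 := fun Y => by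
    simp only [hu, mul_pow, inv_pow, Real.sq_sqrt (hvp Y).le]
  have ev : ∀ Y, v Y ^ 2 = vp T w z Y * ‖om T w Y‖ ^ 2 := fun Y => by
    simp only [hv, mul_pow, Real.sq_sqrt (hvp Y).le]
  have euv : ∀ Y, u Y * v Y = ‖rh T w h₁ z Y - P Y (rh T w h₁ z Y)‖ * ‖om T w Y‖ := fun Y => by
    have := Real.sqrt_pos.2 (hvp Y)
    simp only [hu, hv]
    field_simp
  have i1 : Integrable (fun Y => k (aX T w z Y / t ^ 2) * u Y ^ 2) ν := by
    simp only [eu]
    exact hC.intg H (g0'.mul (g1.norm.pow 2)) hkc hk.pk.zero ht le_rfl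
  have i2 : Integrable (fun Y => k (aX T w z Y / t ^ 2) * (u Y * v Y)) ν := by
    simp only [euv]
    exact hC.intg H (g1.norm.mul g2.norm) hkc hk.pk.zero ht le_rfl
  have i3 : Integrable (fun Y => k (aX T w z Y / t ^ 2) * v Y ^ 2) ν := by
    simp only [ev]
    exact hC.intg H (g0.mul (g2.norm.pow 2)) hkc hk.pk.zero ht le_rfl
  have hcs := cauchy_schwarz_weight (ν := ν) (fun Y => hk.nonneg (aX T w z Y / t ^ 2)) i1 i2 i3
  have hle : |kI T w z ν k (fun Y => ⟪rh T w h₁ z Y, P Y (om T w Y)⟫) t| ≤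
      ∫ Y, k (aX T w z Y / t ^ 2) * (u Y * v Y) ∂ν := by
    unfold kI
    refine (abs_integral_le_integral_abs).trans ?_
    refine integral_mono_of_nonneg (Eventually.of_forall fun y => abs_nonneg _) i2 ?_
    filter_upwards [hC.proj, hC.slab_lt H.ref ht.le hG] with Y hY h2
    by_cases h3 : aX T w z Y < t ^ 2
    · obtain ⟨S, -, hS⟩ := hY
      rw [abs_mul, abs_of_nonneg (hk.nonneg _), euv]
      gcongr
      · exact hk.nonneg _
      · rw [hS]
        have e1 : ⟪rh T w h₁ z Y, S.starProjection (om T w Y)⟫ =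
            -⟪rh T w h₁ z Y - S.starProjection (rh T w h₁ z Y), om T w Y⟫ := by
          rw [inner_sub_left, H.inner_rh_om (h2 h3).2, inner_star]; ring
        rw [e1, abs_neg]
        exact abs_real_inner_le_norm _ _
    · have : 1 ≤ aX T w z Y / t ^ 2 := by
        rw [one_le_div (by positivity)]; exact not_lt.1 h3
      simp only [hk.pk.zero _ this, zero_mul, abs_zero, le_refl]
  rw [hC.outer H hk ht hG]
  unfold bF HF
  have ebF : kI T w z ν k (fun Y => (vp T w z Y)⁻¹ * ‖rh T w h₁ z Y - P Y (rh T w h₁ z Y)‖ ^ 2) t =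
      ∫ Y, k (aX T w z Y / t ^ 2) * u Y ^ 2 ∂ν := by
    unfold kI; simp only [eu]
  have eHF : kI T w z ν k (fun Y => vp T w z Y * ‖om T w Y‖ ^ 2) t =
      ∫ Y, k (aX T w z Y / t ^ 2) * v Y ^ 2 ∂ν := by
    unfold kI; simp only [ev]
  rw [ebF, eHF]
  have h0 : 0 ≤ ∫ Y, k (aX T w z Y / t ^ 2) * (u Y * v Y) ∂ν := (abs_nonneg _).trans hle
  have h1 : (kI T w z ν k (fun Y => ⟪rh T w h₁ z Y, P Y (om T w Y)⟫) t) ^ 2 ≤
      (∫ Y, k (aX T w z Y / t ^ 2) * (u Y * v Y) ∂ν) ^ 2 := by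
    rw [← sq_abs]; gcongr
  calc (t ^ (-(m : ℤ)) * kI T w z ν k (fun Y => ⟪rh T w h₁ z Y, P Y (om T w Y)⟫) t) ^ 2
      = (t ^ (-(m : ℤ))) ^ 2 * (kI T w z ν k (fun Y => ⟪rh T w h₁ z Y, P Y (om T w Y)⟫) t) ^ 2 := by
        ring
    _ ≤ (t ^ (-(m : ℤ))) ^ 2 * ((∫ Y, k (aX T w z Y / t ^ 2) * u Y ^ 2 ∂ν) *
          ∫ Y, k (aX T w z Y / t ^ 2) * v Y ^ 2 ∂ν) := by
        gcongr
        exact h1.trans hcs
    _ = _ := by ring

/-- **Inner variation**, exact ODE for the mass. -/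
theorem CylF.mass_ode (hk : Kern k k' K) (ht : 0 < t) (hG : BallIn T G z t) :
    HasDerivAt (MF m T w z K ν)
      (t⁻¹ * (t ^ (-(m : ℤ)) * (kI T w z ν K (divF m T w h₁ z t P) t +
        t⁻¹ ^ 2 * kI T w z ν k (radF T w h₁ z t P) t))) t := by
  haveI := hC.fin
  have ham : AEStronglyMeasurable (aX T w z) ν := (H.ref.continuous_aX z).aestronglyMeasurable
  have key := hasDerivAt_scaled (ν := ν) hk.pK ham (fun _ => aX_nonneg (T := T) (w := w) (z := z) _)
    (w := fun _ => (1 : ℝ)) aestronglyMeasurable_const (R := t + 1) (C := 1)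
    (Eventually.of_forall fun y _ => by simp) ht (by linarith) (-(m : ℤ))
  refine key.congr_deriv ?_
  congr 2
  have hze : ContDiff ℝ 1 (ze T w z t) :=
    (H.ref.contDiff_ze H.eps_le z ht).of_le (WithTop.coe_le_coe.2 le_top)
  have hcr := (H.contDiff_rh z).continuous
  have gtr := hC.gd_trJ H ht.le hG hze
  have g1 : Gd (aX T w z) ν t (fun _ => (m : ℝ)) := Gd.const _
  have gone : Gd (aX T w z) ν t (fun _ => (1 : ℝ)) := Gd.const _
  have ga : Gd (aX T w z) ν t (aX T w z) := hC.gd H.ref ht.le hG (H.ref.continuous_aX z)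
  have gin := hC.gd_innerP H ht.le hG hcr hze.continuous
  have grad' : Gd (aX T w z) ν t (radF T w h₁ z t P) :=
    (hC.gd_perp H ht.le hG hcr).inner (hC.gd_perp H ht.le hG hze.continuous)
  -- split
  have e1 : kI T w z ν K (divF m T w h₁ z t P) t =
      kI T w z ν K (trJ T w h₁ P (ze T w z t)) t - kI T w z ν K (fun _ => (m : ℝ)) t := by
    unfold divF
    exact hC.kI_sub H gtr g1 hk.pK.continuous hk.pK.zero ht le_rfl
  have e2 := hC.radialK H hk hze ht hG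
  have e3 : kI T w z ν k (fun Y => ⟪rh T w h₁ z Y, P Y (ze T w z t Y)⟫) t =
      kI T w z ν k (fun Y => aX T w z Y - radF T w h₁ z t P Y) t := by
    refine kI_congr hk.pk.zero ht ?_
    filter_upwards [hC.inner_split (rh T w h₁ z) (ze T w z t), hC.slab_lt H.ref ht.le hG] with Y h1 h2 h3
    rw [h1, H.inner_rh_ze (h2 h3).2 t]
    rfl
  rw [hC.kI_sub H ga grad' hk.pk.continuous hk.pk.zero ht le_rfl] at e3
  rw [e1, e2, e3]
  have e4 : ∫ Y, (((-(m : ℤ) : ℤ) : ℝ) * K (aX T w z Y / t ^ 2)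
        - 2 * (aX T w z Y / t ^ 2) * (-(k (aX T w z Y / t ^ 2)) / 2)) * 1 ∂ν =
      t⁻¹ ^ 2 * kI T w z ν k (aX T w z) t - kI T w z ν K (fun _ => (m : ℝ)) t := by
    have i1 := hC.intg H ga hk.pk.continuous hk.pk.zero ht le_rfl
    have i2 := hC.intg H g1 hk.pK.continuous hk.pK.zero ht le_rfl
    unfold kI
    rw [← integral_const_mul, ← integral_sub (i1.const_mul _) i2]
    refine integral_congr_ae (Eventually.of_forall fun Y => ?_)
    simp only [Int.cast_neg, Int.cast_natCast]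
    field_simp
    ring
  rw [e4]
  ring

/-- **Height**, exact ODE. -/
theorem CylF.height_ode (hk : Kern k k' K) (ht : 0 < t) (htR : t < R) (hG : BallIn T G z R) :
    HasDerivAt (HF m T w z k ν)
      (t⁻¹ * (2 * jF m T w h₁ z K P ν t + t ^ (-(m : ℤ)) * (
        kI T w z ν k (fun Y => ‖om T w Y‖ ^ 2 * (trJ T w h₁ P (xg T w z) Y - m * vp T w z Y)) t +
        2 * kI T w z ν k (fun Y => ⟪om T w Y, P Y (xg T w z Y - rh T w h₁ z Y)⟫) t -
        (2 / t ^ 2) * kI T w z ν k' (fun Y => ‖om T w Y‖ ^ 2 *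
          ⟪rh T w h₁ z Y - P Y (rh T w h₁ z Y), xg T w z Y - P Y (xg T w z Y)⟫) t))) t := by
  haveI := hC.fin
  have hR : 0 < R := ht.trans htR
  have hGt : BallIn T G z t := fun x hx hx2 => hG x hx (hx2.trans htR.le)
  have ham : AEStronglyMeasurable (aX T w z) ν := (H.ref.continuous_aX z).aestronglyMeasurable
  have hom := H.ref.contDiff_om
  have hxg := H.ref.contDiff_xg z
  have hrh := H.contDiff_rh z
  have one_le : (1 : WithTop ℕ∞) ≤ ∞ := WithTop.coe_le_coe.2 le_top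
  have gvp := hC.gd_vp H (a := aX T w z) (R := R) (z := z)
  have gom := (hC.gd H.ref hR.le hG hom.continuous).norm.pow 2
  have gF := gvp.mul gom
  obtain ⟨C, hCb⟩ := gF.bound
  have key := hasDerivAt_scaled (ν := ν) hk.pk ham (fun _ => aX_nonneg (T := T) (w := w) (z := z) _)
    gF.meas hCb ht htR (-(m : ℤ))
  refine key.congr_deriv ?_
  congr 1
  -- the test field `|om|² xg`
  set Z : E → E := fun Y => ‖om T w Y‖ ^ 2 • xg T w z Y with hZdef
  have hZ : ContDiff ℝ 1 Z := ((hom.norm_sq ℝ).of_le one_le).smul (hxg.of_le one_le)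
  have hrad := hC.radial' H hk.pk hZ ht hGt
  have htr : ∀ᵐ Y ∂ν, aX T w z Y < t ^ 2 → trJ T w h₁ P Z Y =
      ‖om T w Y‖ ^ 2 * trJ T w h₁ P (xg T w z) Y + 2 * ⟪om T w Y, P Y (xg T w z Y)⟫ := by
    filter_upwards [hC.slab_lt H.ref ht.le hGt] with Y h2 h3
    have hd1 : HasFDerivAt (fun Y => ‖om T w Y‖ ^ 2)
        (2 • (innerSL ℝ (om T w Y)).comp (fderiv ℝ (om T w) Y)) Y :=
      ((hom.differentiable (by simp) Y).hasFDerivAt).norm_sq
    have hd2 : fderiv ℝ Z Y = _ :=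
      (hd1.smul (hxg.differentiable (by simp) Y).hasFDerivAt).fderiv
    unfold trJ
    rw [hd2, ContinuousLinearMap.add_comp, ContinuousLinearMap.add_comp, tr_add,
      ContinuousLinearMap.smul_comp, ContinuousLinearMap.smul_comp, tr_smul, smulRight_comp,
      smulRight_comp, tr_smulRight]
    congr 1
    simp only [ContinuousLinearMap.comp_apply, _root_.smul_apply, innerSL_apply_apply,
      nsmul_eq_mul, Nat.cast_ofNat]
    rw [H.inner_om_fderiv (h2 h3).2]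
  have hinn : ∀ᵐ Y ∂ν, aX T w z Y < t ^ 2 → ⟪rh T w h₁ z Y, P Y (Z Y)⟫ =
      aX T w z Y * (vp T w z Y * ‖om T w Y‖ ^ 2) - ‖om T w Y‖ ^ 2 *
        ⟪rh T w h₁ z Y - P Y (rh T w h₁ z Y), xg T w z Y - P Y (xg T w z Y)⟫ := by
    filter_upwards [hC.inner_split (rh T w h₁ z) (xg T w z), hC.slab_lt H.ref ht.le hGt]
      with Y h1 h2 h3
    simp only [hZdef, map_smul, inner_smul_right]
    rw [h1, H.inner_rh_xg (h2 h3).2]
    unfold aX
    ring
  rw [kI_congr hk.pk.zero ht htr, kI_congr (fun s hs => hk.pk.zero' hs) ht hinn] at hrad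
  -- good functions on the ball of radius `t`
  have gvp' := hC.gd_vp H (a := aX T w z) (R := t) (z := z)
  have gom' := (hC.gd H.ref ht.le hGt hom.continuous).norm.pow 2
  have ga' : Gd (aX T w z) ν t (aX T w z) := hC.gd H.ref ht.le hGt (H.ref.continuous_aX z)
  have gtr := hC.gd_trJ H ht.le hGt (hxg.of_le one_le)
  have gox := hC.gd_innerP H ht.le hGt hom.continuous hxg.continuous
  have gor := hC.gd_innerP H ht.le hGt hom.continuous hrh.continuous
  have gq := gom'.mul ((hC.gd_perp H ht.le hGt hrh.continuous).inner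
    (hC.gd_perp H ht.le hGt hxg.continuous))
  have g2 : Gd (aX T w z) ν t (fun Y => (2 : ℝ)) := Gd.const _
  have gm' : Gd (aX T w z) ν t (fun Y => (m : ℝ)) := Gd.const _
  have kc := hk.pk.continuous
  have kz := hk.pk.zero
  have kc' := hk.pk.cont
  have kz' : ∀ s, 1 ≤ s → k' s = 0 := fun s hs => hk.pk.zero' hs
  rw [hC.kI_add H (gom'.mul gtr) (g2.mul gox) kc kz ht le_rfl, kI_const_mul,
    hC.kI_sub H (ga'.mul (gvp'.mul gom')) gq kc' kz' ht le_rfl] at hrad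
  -- the outer identity
  have hout := hC.outer H hk ht hGt
  have hsym : kI T w z ν k (fun Y => ⟪rh T w h₁ z Y, P Y (om T w Y)⟫) t =
      kI T w z ν k (fun Y => ⟪om T w Y, P Y (rh T w h₁ z Y)⟫) t := by
    refine kI_congr kz ht ?_
    filter_upwards [hC.proj] with Y hY _
    obtain ⟨S, -, hS⟩ := hY
    rw [hS, real_inner_comm, inner_star]
  rw [hsym] at hout
  -- split the remaining terms
  have s1 : kI T w z ν k (fun Y => ‖om T w Y‖ ^ 2 *
      (trJ T w h₁ P (xg T w z) Y - m * vp T w z Y)) t =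
      kI T w z ν k (fun Y => ‖om T w Y‖ ^ 2 * trJ T w h₁ P (xg T w z) Y) t -
      m * kI T w z ν k (fun Y => vp T w z Y * ‖om T w Y‖ ^ 2) t := by
    rw [← kI_const_mul, ← hC.kI_sub H (gom'.mul gtr) (gm'.mul (gvp'.mul gom')) kc kz ht le_rfl]
    exact kI_congr kz ht (Eventually.of_forall fun Y _ => by ring)
  have s2 : kI T w z ν k (fun Y => ⟪om T w Y, P Y (xg T w z Y - rh T w h₁ z Y)⟫) t =
      kI T w z ν k (fun Y => ⟪om T w Y, P Y (xg T w z Y)⟫) t -
      kI T w z ν k (fun Y => ⟪om T w Y, P Y (rh T w h₁ z Y)⟫) t := by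
    rw [← hC.kI_sub H gox gor kc kz ht le_rfl]
    exact kI_congr kz ht (Eventually.of_forall fun Y _ => by rw [map_sub, inner_sub_right])
  have s3 : ∫ Y, (((-(m : ℤ) : ℤ) : ℝ) * k (aX T w z Y / t ^ 2)
        - 2 * (aX T w z Y / t ^ 2) * k' (aX T w z Y / t ^ 2)) * (vp T w z Y * ‖om T w Y‖ ^ 2) ∂ν =
      -(m : ℝ) * kI T w z ν k (fun Y => vp T w z Y * ‖om T w Y‖ ^ 2) t -
      (2 / t ^ 2) * kI T w z ν k' (fun Y => aX T w z Y * (vp T w z Y * ‖om T w Y‖ ^ 2)) t := by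
    have i1 := hC.intg H (gvp'.mul gom') kc kz ht le_rfl
    have i2 := hC.intg H (ga'.mul (gvp'.mul gom')) kc' kz' ht le_rfl
    unfold kI
    rw [← integral_const_mul, ← integral_const_mul, ← integral_sub (i1.const_mul _) (i2.const_mul _)]
    refine integral_congr_ae (Eventually.of_forall fun Y => ?_)
    simp only [Int.cast_neg, Int.cast_natCast]
    ring
  rw [s3, s1, s2, hout]
  linear_combination (-(t ^ (-(m : ℤ)))) * hrad

end

end Vale.Agent.P214.FM
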