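import Vale.Agent.P214.FM.Fermi

/-!
# P214, block FM: stationarity in Fermi coordinates

`fmeas T w h₁ ν` = push-forward of `ν` under the inverse Fermi map, `fP T w h₁ P Y = P (Ψ Y)`.
`CylF`: stationarity of a measure in Fermi coordinates: `∫ tr (DZ ∘ J ∘ P) = 0`.
`CylStat.cylF`: transport from the ambient cylinder.

`planeOf T w x` = tangent plane of the graph over `x`, `eS` = tilt against it,
`FSig` = area excess minus half the tilt excess, relative to the reference graph.
-/

open Set Filter Topology MeasureTheory Metric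
open scoped RealInnerProductSpace ContDiff

set_option linter.all false

namespace Vale.Agent.P214.FM

open FV

variable {E : Type*} [NormedAddCommGroup E] [InnerProductSpace ℝ E] [FiniteDimensional ℝ E]

/-! ### the tangent planes of the graph -/

/-- tangent plane of the graph of `w` over the base point of `y` -/
noncomputable def planeOf (T : Submodule ℝ E) (w : E → E) (y : E) : Submodule ℝ E :=
  T.map ((ContinuousLinearMap.id ℝ E + fderiv ℝ w y : E →L[ℝ] E) : E →ₗ[ℝ] E)

/-- projection onto the tangent plane -/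
noncomputable def PS (T : Submodule ℝ E) (w : E → E) (y : E) : E →L[ℝ] E :=
  (planeOf T w y).starProjection

/-- tilt against the tangent plane of the graph, in Fermi coordinates: `B = P (Ψ Y)` -/
noncomputable def eS (T : Submodule ℝ E) (w : E → E) (y : E) (B : E →L[ℝ] E) : ℝ :=
  tilt (planeOf T w y) B

/-- area element of the graph -/
noncomputable def areaEl (w : E → E) (y : E) : ℝ :=
  √(LinearMap.det ((ContinuousLinearMap.id ℝ E + (adj (fderiv ℝ w y)).comp (fderiv ℝ w y) :
    E →L[ℝ] E) : E →ₗ[ℝ] E))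

/-- the graph of `w` is minimal over `G` -/
def MinimalOver (T : Submodule ℝ E) (w : E → E) (G : Set E) : Prop :=
  ∀ y, T.starProjection y ∈ G → lap w (PS T w y) y = 0

namespace Ref

variable {T : Submodule ℝ E} {w : E → E} {ε κ : ℝ}

lemma mem_planeOf_iff (hw : Ref T w ε κ) (y z : E) :
    z ∈ planeOf T w y ↔ ∃ v ∈ T, D0 w y v = z := by
  unfold planeOf
  rw [Submodule.mem_map]
  constructor
  · rintro ⟨v, hv, rfl⟩
    refine ⟨v, hv, ?_⟩
    have h1 : T.starProjection v = v := Submodule.starProjection_eq_self_iff.2 hv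
    have h2 : adj (fderiv ℝ w y) v = 0 := by rw [← h1, hw.adj_fderiv_star]
    rw [D0_apply, h2, sub_zero]
    rfl
  · rintro ⟨v, hv, rfl⟩
    refine ⟨v, hv, ?_⟩
    have h1 : T.starProjection v = v := Submodule.starProjection_eq_self_iff.2 hv
    have h2 : adj (fderiv ℝ w y) v = 0 := by rw [← h1, hw.adj_fderiv_star]
    rw [D0_apply, h2, sub_zero]
    rfl

/-- `1 + A - A^*` is injective -/
lemma inner_D0_self (w : E → E) (y v : E) : ⟪D0 w y v, v⟫ = ‖v‖ ^ 2 := by
  rw [D0_apply, inner_sub_left, inner_add_left, inner_adj_left, real_inner_self_eq_norm_sq,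
    real_inner_comm (fderiv ℝ w y v)]
  ring

/-- the differential at height zero maps `T` and `Tᗮ` to orthogonal spaces -/
lemma inner_D0_D0 (hw : Ref T w ε κ) (y v u : E) :
    ⟪D0 w y (T.starProjection v), D0 w y (co T u)⟫ = 0 := by
  rw [D0_apply, D0_apply, hw.adj_fderiv_star, hw.fderiv_co, sub_zero, add_zero]
  rw [inner_add_left, inner_sub_right, inner_sub_right, inner_adj_right, hw.fderiv_star,
    inner_adj_right, inner_star, star_co, inner_zero_right]
  have h1 : fderiv ℝ w y (fderiv ℝ w y v) = 0 := by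
    rw [← hw.fderiv_star y (fderiv ℝ w y v), hw.star_fderiv, map_zero]
  rw [h1, inner_zero_left]
  ring

lemma finrank_planeOf (hw : Ref T w ε κ) (y : E) :
    Module.finrank ℝ (planeOf T w y) = Module.finrank ℝ T := by
  unfold planeOf
  have h1 : Function.Injective (((ContinuousLinearMap.id ℝ E + fderiv ℝ w y : E →L[ℝ] E) :
      E →ₗ[ℝ] E).domRestrict T) := by
    rw [injective_iff_map_eq_zero]
    intro v hv
    have h2 : (v : E) + fderiv ℝ w y v = 0 := hv
    have h3 := congrArg T.starProjection h2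
    rw [map_add, hw.star_fderiv, add_zero, map_zero,
      Submodule.starProjection_eq_self_iff.2 v.2] at h3
    exact Subtype.ext h3
  have h4 := LinearMap.finrank_range_of_inj h1
  rw [LinearMap.range_domRestrict] at h4
  exact h4

/-- `P_S D₀ = D₀ p` -/
lemma PS_D0 (hw : Ref T w ε κ) (y v : E) : PS T w y (D0 w y v) = D0 w y (T.starProjection v) := by
  have h1 : D0 w y (T.starProjection v) ∈ planeOf T w y :=
    (hw.mem_planeOf_iff y _).2 ⟨_, T.starProjection_apply_mem v, rfl⟩
  have h2 : D0 w y (co T v) ∈ (planeOf T w y)ᗮ := by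
    rw [Submodule.mem_orthogonal]
    rintro z hz
    obtain ⟨v', hv', rfl⟩ := (hw.mem_planeOf_iff y z).1 hz
    rw [← Submodule.starProjection_eq_self_iff.2 hv']
    exact hw.inner_D0_D0 y v' v
  conv_lhs => rw [← star_add_co T v, map_add]
  unfold PS
  rw [map_add, Submodule.starProjection_eq_self_iff.2 h1,
    (Submodule.starProjection_apply_eq_zero_iff _).2 h2, add_zero]

lemma planeOf_base (hw : Ref T w ε κ) (y : E) : planeOf T w (T.starProjection y) = planeOf T w y := by
  unfold planeOf; rw [hw.fderiv_base]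

lemma PS_base (hw : Ref T w ε κ) (y : E) : PS T w (T.starProjection y) = PS T w y := by
  unfold PS; simp only [hw.planeOf_base]

end Ref

variable [MeasurableSpace E] [BorelSpace E]

/-- `F_Σ(φ) = ∫ φ(x) (1 - e_Σ/2) dν - Q ∫_T φ √g`, in Fermi coordinates -/
noncomputable def FSig (m Q : ℕ) (T : Submodule ℝ E) (w : E → E) (ν : Measure E)
    (P : E → E →L[ℝ] E) (φ : E → ℝ) : ℝ :=
  ∫ Y, φ (T.starProjection Y) * (1 - eS T w Y (P Y) / 2) ∂ν -
    Q * ∫ x in (T : Set E), φ x * areaEl w x ∂μH[m]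

/-- a stationary measure in Fermi coordinates over `G`, in the slab of height `h < h₁` -/
structure CylF (m : ℕ) (T : Submodule ℝ E) (w : E → E) (h₁ : ℝ) (G : Set E) (h : ℝ)
    (ν : Measure E) (P : E → E →L[ℝ] E) : Prop where
  fin : IsFiniteMeasure ν
  meas : AEStronglyMeasurable P ν
  proj : ∀ᵐ y ∂ν, ∃ S : Submodule ℝ E, Module.finrank ℝ S = m ∧ P y = S.starProjection
  dimT : Module.finrank ℝ T = m
  isOpen : IsOpen G
  slab : ∀ᵐ y ∂ν, T.starProjection y ∈ G → ‖co T y‖ ≤ h
  lt : h < h₁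
  stat : ∀ Z : E → E, ContDiff ℝ 1 Z → BaseCpt T G Z →
    ∫ y, tr (((fderiv ℝ Z y).comp (Jm T w h₁ y)).comp (P y)) ∂ν = 0

/-- the measure in Fermi coordinates -/
noncomputable def fmeas (T : Submodule ℝ E) (w : E → E) (h₁ : ℝ) (ν : Measure E) : Measure E :=
  ν.map (PsiInv T w h₁)

/-- the tangent planes in Fermi coordinates -/
noncomputable def fP (T : Submodule ℝ E) (w : E → E) (h₁ : ℝ) (P : E → E →L[ℝ] E) :
    E → E →L[ℝ] E := fun Y => P (Psi T w h₁ Y)

section transport

variable {m : ℕ} {T : Submodule ℝ E} {w : E → E} {ε κ h₁ : ℝ} {G G' : Set E} {h h' : ℝ}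
  {ν : Measure E} {P : E → E →L[ℝ] E}

lemma Adm.aem (H : Adm T w ε κ h₁) : Measurable (PsiInv T w h₁) :=
  H.contDiff_PsiInv.continuous.measurable

lemma Adm.measurable_Psi (H : Adm T w ε κ h₁) : Measurable (Psi T w h₁) :=
  (H.ref.contDiff_Psi h₁).continuous.measurable

/-- change of variables -/
lemma Adm.integral_fmeas (H : Adm T w ε κ h₁) {F : Type*} [NormedAddCommGroup F] [NormedSpace ℝ F]
    (ν : Measure E) (f : E → F) :
    ∫ Y, f (Psi T w h₁ Y) ∂(fmeas T w h₁ ν) = ∫ y, f y ∂ν := by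
  have h1 : MeasurableEmbedding (PsiInv T w h₁) := by
    have h0 : PsiInv T w h₁ = H.hom.symm := funext H.PsiInv_eq
    rw [h0]
    exact H.hom.symm.measurableEmbedding
  unfold fmeas
  rw [h1.integral_map]
  simp only [H.Psi_PsiInv]

lemma Adm.map_Psi (H : Adm T w ε κ h₁) (ν : Measure E) : (fmeas T w h₁ ν).map (Psi T w h₁) = ν := by
  unfold fmeas
  rw [Measure.map_map H.measurable_Psi H.aem]
  have : Psi T w h₁ ∘ PsiInv T w h₁ = id := funext H.Psi_PsiInv
  rw [this, Measure.map_id]

lemma Adm.ae_fmeas (H : Adm T w ε κ h₁) {p : E → Prop} (hp : ∀ᵐ y ∂ν, p y) :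
    ∀ᵐ Y ∂(fmeas T w h₁ ν), p (Psi T w h₁ Y) := by
  rw [← H.map_Psi ν] at hp
  exact ae_of_ae_map H.measurable_Psi.aemeasurable hp

lemma Adm.aestronglyMeasurable (H : Adm T w ε κ h₁) {F : Type*} [TopologicalSpace F]
    [TopologicalSpace.PseudoMetrizableSpace F] {f : E → F} (hf : AEStronglyMeasurable f ν) :
    AEStronglyMeasurable (fun Y => f (Psi T w h₁ Y)) (fmeas T w h₁ ν) := by
  rw [← H.map_Psi ν] at hf
  exact hf.comp_measurable H.measurable_Psi

/-- **Transport to Fermi coordinates.**  `G'` is `G` shrunk by the displacement `2 ε h₁`; the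
measure sits in the slab `‖q y - w (p y)‖ ≤ h'` around the graph. -/
theorem _root_.Vale.Agent.P214.FV.CylStat.cylF (hC : CylStat m T G h ν P)
    (H : Adm T w ε κ h₁) (hG' : IsOpen G')
    (hGG : ∀ x ∈ G', ∀ y, ‖y - x‖ ≤ 2 * ε * h₁ → y ∈ G)
    (hs : ∀ᵐ y ∂ν, T.starProjection y ∈ G → ‖co T y - w y‖ ≤ h')
    (hh : h' / (1 - ε ^ 2) < h₁) :
    CylF m T w h₁ G' (h' / (1 - ε ^ 2)) (fmeas T w h₁ ν) (fP T w h₁ P) := by
  have hfin := hC.fin
  have hε1 : ε ≤ 1 / 16 := H.hε.trans eps0_le
  have hε0 := H.ref.eps_nonneg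
  refine ⟨?_, H.aestronglyMeasurable hC.meas, H.ae_fmeas hC.proj, hC.dimT, hG', ?_, hh, ?_⟩
  · unfold fmeas; exact Measure.isFiniteMeasure_map ν _
  · filter_upwards [H.ae_fmeas hs] with Y hY hYG
    have h1 : T.starProjection (Psi T w h₁ Y) ∈ G :=
      hGG _ hYG _ (H.ref.norm_star_Psi_sub_le H.hpos Y)
    have h2 := hY h1
    have h3 := H.ref.norm_height_le h₁ Y
    have h4 : ‖co T Y‖ ≤ h' + ε ^ 2 * ‖co T Y‖ := by
      calc ‖co T Y‖ = ‖(co T (Psi T w h₁ Y) - w (Psi T w h₁ Y)) +
            (co T Y - (co T (Psi T w h₁ Y) - w (Psi T w h₁ Y)))‖ := by congr 1; abel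
        _ ≤ h' + ε ^ 2 * ‖co T Y‖ := (norm_add_le _ _).trans (add_le_add h2 h3)
    rw [le_div_iff₀ (by nlinarith)]
    linarith
  · rintro Z hZ ⟨K, hK, hKG, hZ0⟩
    set X : E → E := fun y => Z (PsiInv T w h₁ y) with hX
    have hXc : ContDiff ℝ 1 X := hZ.comp (H.contDiff_PsiInv.of_le (WithTop.coe_le_coe.2 le_top))
    have hXb : BaseCpt T G X := by
      refine ⟨cthickening (2 * ε * h₁) K, hK.cthickening, ?_, fun y hy => ?_⟩
      · intro z hz
        have h0 : 0 ≤ 2 * ε * h₁ := by have := H.hpos; positivity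
        rw [hK.cthickening_eq_biUnion_closedBall h0] at hz
        simp only [mem_iUnion, mem_closedBall, dist_eq_norm] at hz
        obtain ⟨x, hx, hzx⟩ := hz
        exact hGG x (hKG hx) z hzx
      · simp only [hX]
        apply hZ0
        intro hc
        apply hy
        have h1 := H.ref.norm_star_Psi_sub_le H.hpos (PsiInv T w h₁ y)
        rw [H.Psi_PsiInv] at h1
        refine mem_cthickening_of_dist_le _ _ _ _ hc ?_
        rw [dist_eq_norm]
        exact h1
    have h1 := hC.stat X hXc hXb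
    rw [← h1, ← H.integral_fmeas ν (fun y => tr ((fderiv ℝ X y).comp (P y)))]
    refine integral_congr_ae (Eventually.of_forall fun Y => ?_)
    have h2 : HasFDerivAt X ((fderiv ℝ Z Y).comp (Jm T w h₁ Y)) (Psi T w h₁ Y) := by
      have h3 : HasFDerivAt Z (fderiv ℝ Z Y) (PsiInv T w h₁ (Psi T w h₁ Y)) := by
        rw [H.PsiInv_Psi]; exact (hZ.differentiable (by norm_num) Y).hasFDerivAt
      have h4 : HasFDerivAt (PsiInv T w h₁) (Jm T w h₁ Y) (Psi T w h₁ Y) := by
        rw [← H.fderiv_PsiInv]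
        exact (H.contDiff_PsiInv.differentiable (by simp) _).hasFDerivAt
      exact h3.comp _ h4
    simp only [h2.fderiv, fP]

end transport

end Vale.Agent.P214.FM
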