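import Vale.Agent.P214.FM.Field -- paste over FM/Beta

/-!
# P214, block FM: the base field `be` (scale dependent)

`be T w z t = gm / vp` for `‖bx‖ ≥ t/2`, `= bx` for `‖bx‖ ≤ t/4`.  `contDiff_be`,
`norm_fderiv_gm_sub_le`, `norm_fderiv_be_sub_le`.  The smallness of the slope is assumed at the point
only (`‖fderiv ℝ w Y‖ ≤ κ ‖bx‖`), for `be` in the form `Flat T w z κ (t/4)`.
-/

open Set Filter Topology MeasureTheory Metric
open scoped RealInnerProductSpace ContDiff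

set_option linter.all false

namespace Vale.Agent.P214.FM

open FV ODE

variable {E : Type*} [NormedAddCommGroup E] [InnerProductSpace ℝ E] [FiniteDimensional ℝ E]

/-! ### the cut-off -/

lemma contDiff_cb {n : ℕ∞} : ContDiff ℝ n cb := by
  unfold cb
  exact Real.smoothTransition.contDiff.comp (by fun_prop)

lemma cb_zero {s : ℝ} (hs : s ≤ 1 / 16) : cb s = 0 := by
  unfold cb
  exact Real.smoothTransition.zero_of_nonpos (by linarith)

lemma cb_one {s : ℝ} (hs : 1 / 4 ≤ s) : cb s = 1 := by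
  unfold cb
  exact Real.smoothTransition.one_of_one_le (by linarith)

lemma cb_nonneg (s : ℝ) : 0 ≤ cb s := Real.smoothTransition.nonneg _

lemma cb_le_one (s : ℝ) : cb s ≤ 1 := Real.smoothTransition.le_one _

lemma abs_deriv_cb_le (s : ℝ) : |deriv cb s| ≤ 16 / 3 * cT := by
  have h1 : HasDerivAt cb (deriv Real.smoothTransition ((16 * s - 1) / 3) * (16 / 3)) s := by
    have h2 : HasDerivAt (fun s : ℝ => (16 * s - 1) / 3) (16 / 3) s := by
      have := (((hasDerivAt_id s).const_mul 16).sub_const 1).div_const 3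
      simpa using this
    have h3 : HasDerivAt Real.smoothTransition (deriv Real.smoothTransition ((16 * s - 1) / 3))
        ((16 * s - 1) / 3) :=
      ((Real.smoothTransition.contDiff (n := 1)).differentiable (by norm_num) _).hasDerivAt
    exact h3.comp s h2
  rw [h1.deriv, abs_mul, abs_of_pos (by norm_num : (0:ℝ) < 16 / 3)]
  have := abs_deriv_le_cT ((16 * s - 1) / 3)
  nlinarith [cT_nonneg]

/-- the slope is small away from the centre -/
def Flat (T : Submodule ℝ E) (w : E → E) (z : E) (κ ρ : ℝ) : Prop :=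
  ∀ Y, ρ ≤ ‖bx T z Y‖ → ‖fderiv ℝ w Y‖ ≤ κ * ‖bx T z Y‖

lemma Flat.mono {T : Submodule ℝ E} {w : E → E} {z : E} {κ κ' ρ ρ' : ℝ} (h : Flat T w z κ ρ)
    (hκ : κ ≤ κ') (hρ : ρ ≤ ρ') : Flat T w z κ' ρ' := fun Y hY =>
  (h Y (hρ.trans hY)).trans (by gcongr)

lemma norm_sub_star_le [MeasurableSpace E] [BorelSpace E] (S : Submodule ℝ E) (x : E) :
    ‖x - S.starProjection x‖ ≤ ‖x‖ := by
  have h1 := inner_proj_self (S := S) x
  have h2 := inner_star_self S x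
  have h3 : ‖x - S.starProjection x‖ ^ 2 = ‖x‖ ^ 2 - ‖S.starProjection x‖ ^ 2 := by
    rw [h2] at h1; linarith
  refine pow_le_pow_left_iff h3
where
  pow_le_pow_left_iff (h3 : ‖x - S.starProjection x‖ ^ 2 = ‖x‖ ^ 2 - ‖S.starProjection x‖ ^ 2) :
      ‖x - S.starProjection x‖ ≤ ‖x‖ := by
    have h4 : ‖x - S.starProjection x‖ ^ 2 ≤ ‖x‖ ^ 2 := by
      rw [h3]; nlinarith [sq_nonneg ‖S.starProjection x‖]
    exact (sq_le_sq₀ (norm_nonneg _) (norm_nonneg _)).1 h4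

namespace Ref

variable [MeasurableSpace E] [BorelSpace E]
variable {T : Submodule ℝ E} {w : E → E} {ε κ : ℝ} {z : E}

lemma flat_of (hw : Ref T w ε κ) {ρ : ℝ} (h : ‖fderiv ℝ w z‖ ≤ κ * ρ) : Flat T w z (2 * κ) ρ := by
  intro Y hY
  have hk := hw.knn
  have h1 : ‖fderiv ℝ w Y - fderiv ℝ w z‖ ≤ κ * ‖bx T z Y‖ := by
    rw [← hw.fderiv_base Y, ← hw.fderiv_base z, bx_eq]
    exact (convex_univ (𝕜 := ℝ) (E := E)).norm_image_sub_le_of_norm_hasFDerivWithin_le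
      (f := fderiv ℝ w) (f' := D2 w) (C := κ)
      (fun z _ => (hw.diff1 z).hasFDerivAt.hasFDerivWithinAt)
      (fun z _ => hw.norm_D2_le z) (mem_univ _) (mem_univ _)
  calc ‖fderiv ℝ w Y‖ = ‖(fderiv ℝ w Y - fderiv ℝ w z) + fderiv ℝ w z‖ := by congr 1; abel
    _ ≤ κ * ‖bx T z Y‖ + κ * ρ := (norm_add_le _ _).trans (add_le_add h1 h)
    _ ≤ κ * ‖bx T z Y‖ + κ * ‖bx T z Y‖ := by gcongr
    _ = _ := by ring

lemma contDiff_sg (hw : Ref T w ε κ) (z : E) : ContDiff ℝ ∞ (sg T w z) :=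
  hw.contDiff_PS.clm_apply (hw.contDiff_XX z)

lemma contDiff_nX (hw : Ref T w ε κ) (z : E) : ContDiff ℝ ∞ (nX T w z) :=
  (hw.contDiff_XX z).sub (hw.contDiff_sg z)

lemma contDiff_gm (hw : Ref T w ε κ) (z : E) : ContDiff ℝ ∞ (gm T w z) :=
  hw.contDiff_J0.clm_apply (hw.contDiff_sg z)

lemma contDiff_cR (hw : Ref T w ε κ) (z : E) : ContDiff ℝ ∞ (cR T w z) := contDiff_bx T z

/-- derivative of the tangential part -/
lemma fderiv_sg (hw : Ref T w ε κ) (z Y v : E) : fderiv ℝ (sg T w z) Y v =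
    PS T w Y (T.starProjection v) + fderiv ℝ (PS T w) Y v (XX T w z Y) := by
  have h1 : HasFDerivAt (PS T w) (fderiv ℝ (PS T w) Y) Y :=
    (hw.contDiff_PS.differentiable (by simp) Y).hasFDerivAt
  have h2 : HasFDerivAt (XX T w z) (fderiv ℝ (XX T w z) Y) Y :=
    ((hw.contDiff_XX z).differentiable (by simp) Y).hasFDerivAt
  have h3 : HasFDerivAt (sg T w z) _ Y := h1.clm_apply h2
  rw [h3.fderiv]
  simp only [_root_.add_apply, ContinuousLinearMap.comp_apply, ContinuousLinearMap.flip_apply,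
    hw.fderiv_XX]

lemma fderiv_nX (hw : Ref T w ε κ) (z Y v : E) : fderiv ℝ (nX T w z) Y v =
    (T.starProjection v - PS T w Y (T.starProjection v))
      - fderiv ℝ (PS T w) Y v (XX T w z Y) := by
  have h1 : HasFDerivAt (nX T w z) (fderiv ℝ (XX T w z) Y - fderiv ℝ (sg T w z) Y) Y :=
    ((hw.contDiff_XX z).differentiable (by simp) Y).hasFDerivAt.sub
      ((hw.contDiff_sg z).differentiable (by simp) Y).hasFDerivAt
  rw [h1.fderiv]
  show fderiv ℝ (XX T w z) Y v - fderiv ℝ (sg T w z) Y v = _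
  rw [hw.fderiv_XX, hw.fderiv_sg]
  abel

/-- distance of a base vector to the tangent plane -/
lemma norm_sub_PS_le (hw : Ref T w ε κ) {Y : E} (v : E) :
    ‖T.starProjection v - PS T w Y (T.starProjection v)‖ ≤ ‖fderiv ℝ w Y v‖ := by
  have h1 : PS T w Y (T.starProjection v + fderiv ℝ w Y v) =
      T.starProjection v + fderiv ℝ w Y v := by
    have h2 : D0 w Y (T.starProjection v) = T.starProjection v + fderiv ℝ w Y v := by
      rw [D0_apply, hw.adj_fderiv_star, hw.fderiv_star, sub_zero]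
    rw [← h2, hw.PS_D0, star_self]
  have h3 : T.starProjection v - PS T w Y (T.starProjection v) =
      -(fderiv ℝ w Y v - (planeOf T w Y).starProjection (fderiv ℝ w Y v)) := by
    rw [map_add] at h1
    show T.starProjection v - PS T w Y (T.starProjection v) =
      -(fderiv ℝ w Y v - PS T w Y (fderiv ℝ w Y v))
    have h4 : PS T w Y (fderiv ℝ w Y v) =
        T.starProjection v + fderiv ℝ w Y v - PS T w Y (T.starProjection v) := by
      rw [← h1]; abel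
    rw [h4]; abel
  rw [h3, norm_neg]
  exact norm_sub_star_le _ _

section pt

variable {Y : E} (hpt : ‖fderiv ℝ w Y‖ ≤ κ * ‖bx T z Y‖)

include hpt

lemma norm_fderiv_pt (v : E) : ‖fderiv ℝ w Y v‖ ≤ κ * ‖bx T z Y‖ * ‖v‖ :=
  ((fderiv ℝ w Y).le_opNorm v).trans (by gcongr)

lemma norm_fderiv_nX_le (hw : Ref T w ε κ) (v : E) :
    ‖fderiv ℝ (nX T w z) Y v‖ ≤ 5 * κ * ‖bx T z Y‖ * ‖v‖ := by
  rw [hw.fderiv_nX]
  have hk := hw.knn
  calc _ ≤ κ * ‖bx T z Y‖ * ‖v‖ + 4 * κ * ‖v‖ * ‖XX T w z Y‖ :=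
        (norm_sub_le _ _).trans (add_le_add ((hw.norm_sub_PS_le v).trans (norm_fderiv_pt hpt v))
          (hw.norm_fderiv_PS_le _ _ _))
    _ = _ := by unfold XX; ring

/-- the normal part of the position is quadratic -/
lemma norm_nX_le (hw : Ref T w ε κ) : ‖nX T w z Y‖ ≤ κ * ‖bx T z Y‖ ^ 2 := by
  have h1 := hw.norm_sub_PS_le (Y := Y) (bx T z Y)
  rw [starProjection_bx] at h1
  refine (h1.trans (norm_fderiv_pt hpt _)).trans (le_of_eq (by ring))

/-- `1 - vp` is quadratic -/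
lemma one_sub_vp_le (hw : Ref T w ε κ) : 1 - vp T w z Y ≤ κ ^ 2 * ‖bx T z Y‖ ^ 2 := by
  have hk := hw.knn
  unfold vp
  rw [sub_sub_cancel]
  rcases eq_or_ne (‖XX T w z Y‖ ^ 2) 0 with h | h
  · rw [h, div_zero]; positivity
  · have h4 : 0 < ‖XX T w z Y‖ ^ 2 := lt_of_le_of_ne (sq_nonneg _) h.symm
    rw [div_le_iff₀ h4]
    have h1 := norm_nX_le hpt hw
    calc ‖nX T w z Y‖ ^ 2 ≤ (κ * ‖bx T z Y‖ ^ 2) ^ 2 := by gcongr
      _ = κ ^ 2 * ‖bx T z Y‖ ^ 2 * ‖XX T w z Y‖ ^ 2 := by unfold XX; ring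

end pt

lemma norm_gm_le' (hw : Ref T w ε κ) (z Y : E) : ‖gm T w z Y‖ ≤ ‖bx T z Y‖ :=
  (norm_J0_apply_le _ _ _).trans (norm_star_le _ _)

lemma norm_gm_le (hw : Ref T w ε κ) (hε : ε ≤ 1 / 16) (z Y : E) :
    ‖gm T w z Y‖ ≤ 17 / 16 * ‖bx T z Y‖ := by
  have := hw.norm_gm_le' z Y
  have := norm_nonneg (bx T z Y)
  linarith

/-- derivative of `grad_g R` -/
lemma fderiv_gm (hw : Ref T w ε κ) (z Y v : E) : fderiv ℝ (gm T w z) Y v =
    T.starProjection (J0 w Y (T.starProjection v))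
      - T.starProjection (J0 w Y (Kd w Y v (J0 w Y (XX T w z Y)))) := by
  have h0 : gm T w z = fun Y => T.starProjection (J0 w Y (XX T w z Y)) :=
    funext fun Y => hw.gm_eq z Y
  have h1 : HasFDerivAt (J0 w) (fderiv ℝ (J0 w) Y) Y :=
    (hw.contDiff_J0.differentiable (by simp) Y).hasFDerivAt
  have h2 : HasFDerivAt (XX T w z) (fderiv ℝ (XX T w z) Y) Y :=
    ((hw.contDiff_XX z).differentiable (by simp) Y).hasFDerivAt
  have h3 : fderiv ℝ (fun Y => T.starProjection (J0 w Y (XX T w z Y))) Y = _ :=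
    ((T.starProjection.hasFDerivAt (x := J0 w Y (XX T w z Y))).comp Y (h1.clm_apply h2)).fderiv
  rw [h0, h3]
  simp only [ContinuousLinearMap.comp_apply, _root_.add_apply, ContinuousLinearMap.flip_apply,
    hw.fderiv_XX, hw.fderiv_J0, _root_.neg_apply, map_add, map_neg]
  abel

/-- `J0` is close to the identity on the base -/
lemma norm_J0_star_sub_le (hw : Ref T w ε κ) (Y v : E) :
    ‖J0 w Y (T.starProjection v) - T.starProjection v‖ ≤ ‖fderiv ℝ w Y v‖ := by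
  have h2 : D0 w Y (T.starProjection v) = T.starProjection v + fderiv ℝ w Y v := by
    rw [D0_apply, hw.adj_fderiv_star, hw.fderiv_star, sub_zero]
  have h3 : J0 w Y (T.starProjection v) - T.starProjection v = -(J0 w Y (fderiv ℝ w Y v)) := by
    have h4 : J0 w Y (D0 w Y (T.starProjection v)) = T.starProjection v := J0_D0 w Y _
    rw [h2, map_add] at h4
    rw [← sub_eq_zero]
    rw [← sub_eq_zero] at h4
    rw [← h4]; abel
  rw [h3, norm_neg]
  exact norm_J0_apply_le _ _ _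

section pt2

variable {Y : E} (hpt : ‖fderiv ℝ w Y‖ ≤ κ * ‖bx T z Y‖)

include hpt

lemma norm_fderiv_gm_sub_le (hw : Ref T w ε κ) (v : E) :
    ‖fderiv ℝ (gm T w z) Y v - T.starProjection v‖ ≤ 3 * κ * ‖bx T z Y‖ * ‖v‖ := by
  rw [hw.fderiv_gm]
  have hk := hw.knn
  have e1 : T.starProjection (J0 w Y (T.starProjection v))
      - T.starProjection (J0 w Y (Kd w Y v (J0 w Y (XX T w z Y)))) - T.starProjection v =
      T.starProjection (J0 w Y (T.starProjection v) - T.starProjection v) -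
        T.starProjection (J0 w Y (Kd w Y v (J0 w Y (XX T w z Y)))) := by
    rw [map_sub, star_self]; abel
  rw [e1]
  have h1 : ‖T.starProjection (J0 w Y (T.starProjection v) - T.starProjection v)‖ ≤
      κ * ‖bx T z Y‖ * ‖v‖ :=
    (norm_star_le T _).trans ((hw.norm_J0_star_sub_le Y v).trans (norm_fderiv_pt hpt v))
  have h2 : ‖T.starProjection (J0 w Y (Kd w Y v (J0 w Y (XX T w z Y))))‖ ≤
      2 * κ * ‖v‖ * ‖bx T z Y‖ := by
    calc _ ≤ ‖Kd w Y v (J0 w Y (XX T w z Y))‖ :=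
          (norm_star_le T _).trans (norm_J0_apply_le _ _ _)
      _ ≤ 2 * κ * ‖v‖ * ‖J0 w Y (XX T w z Y)‖ := hw.norm_Kd_apply_le _ _ _
      _ ≤ 2 * κ * ‖v‖ * ‖bx T z Y‖ := by
          gcongr; exact norm_J0_apply_le _ _ _
  calc _ ≤ κ * ‖bx T z Y‖ * ‖v‖ + 2 * κ * ‖v‖ * ‖bx T z Y‖ :=
        (norm_sub_le _ _).trans (add_le_add h1 h2)
    _ = _ := by ring

lemma norm_gm_sub_le (hw : Ref T w ε κ) : ‖gm T w z Y - bx T z Y‖ ≤ κ * ‖bx T z Y‖ ^ 2 := by
  have h1 := hw.norm_J0_star_sub_le Y (bx T z Y)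
  have h2 : gm T w z Y - bx T z Y =
      T.starProjection (J0 w Y (T.starProjection (bx T z Y)) - T.starProjection (bx T z Y)) := by
    rw [map_sub, star_self, starProjection_bx, hw.gm_eq]; rfl
  rw [h2]
  exact (norm_star_le T _).trans (h1.trans ((norm_fderiv_pt hpt _).trans (le_of_eq (by ring))))

end pt2

lemma fderiv_normsq_apply {f : E → E} (hf : ContDiff ℝ ∞ f) (Y v : E) :
    fderiv ℝ (fun Y => ‖f Y‖ ^ 2) Y v = 2 * ⟪f Y, fderiv ℝ f Y v⟫ := by
  have h1 := ((hf.differentiable (by simp) Y).hasFDerivAt).norm_sq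
  rw [h1.fderiv]
  simp [two_mul]

/-! ### the weight -/

lemma contDiffAt_vp (hw : Ref T w ε κ) {z Y : E} (h : bx T z Y ≠ 0) :
    ContDiffAt ℝ ∞ (vp T w z) Y := by
  unfold vp
  refine contDiffAt_const.sub ?_
  have h1 : ContDiff ℝ ∞ fun Y => ‖nX T w z Y‖ ^ 2 := (hw.contDiff_nX z).norm_sq ℝ
  have h2 : ContDiff ℝ ∞ fun Y => ‖XX T w z Y‖ ^ 2 := (hw.contDiff_XX z).norm_sq ℝ
  refine h1.contDiffAt.div h2.contDiffAt ?_
  have : 0 < ‖bx T z Y‖ := norm_pos_iff.2 h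
  unfold XX; positivity

lemma norm_fderiv_vp_le (hw : Ref T w ε κ) {z Y : E} (h : bx T z Y ≠ 0)
    (hpt : ‖fderiv ℝ w Y‖ ≤ κ * ‖bx T z Y‖) (v : E) :
    |fderiv ℝ (vp T w z) Y v| ≤ 12 * κ ^ 2 * ‖bx T z Y‖ * ‖v‖ := by
  have hk := hw.knn
  have hb : 0 < ‖bx T z Y‖ := norm_pos_iff.2 h
  have h1 : ContDiff ℝ ∞ fun Y => ‖nX T w z Y‖ ^ 2 := (hw.contDiff_nX z).norm_sq ℝ
  have h2 : ContDiff ℝ ∞ fun Y => ‖XX T w z Y‖ ^ 2 := (hw.contDiff_XX z).norm_sq ℝ
  have hne : ‖XX T w z Y‖ ^ 2 ≠ 0 := by unfold XX; positivity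
  have d1 := (h1.differentiable (by simp) Y).hasFDerivAt
  have d2 := (h2.differentiable (by simp) Y).hasFDerivAt
  have d3 : HasFDerivAt (fun Y => (‖XX T w z Y‖ ^ 2)⁻¹)
      ((-((‖XX T w z Y‖ ^ 2) ^ 2)⁻¹) • fderiv ℝ (fun Y => ‖XX T w z Y‖ ^ 2) Y) Y :=
    (hasDerivAt_inv hne).comp_hasFDerivAt Y d2
  have h0 : vp T w z = fun Y => 1 - ‖nX T w z Y‖ ^ 2 * (‖XX T w z Y‖ ^ 2)⁻¹ := by
    funext Y; unfold vp; rw [div_eq_mul_inv]
  have d4 : HasFDerivAt (vp T w z)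
      (-(‖nX T w z Y‖ ^ 2 • ((-((‖XX T w z Y‖ ^ 2) ^ 2)⁻¹) •
        fderiv ℝ (fun Y => ‖XX T w z Y‖ ^ 2) Y) +
        (‖XX T w z Y‖ ^ 2)⁻¹ • fderiv ℝ (fun Y => ‖nX T w z Y‖ ^ 2) Y)) Y := by
    rw [h0]
    exact (d1.mul d3).const_sub 1
  rw [d4.fderiv]
  simp only [_root_.neg_apply, _root_.add_apply, _root_.smul_apply, smul_eq_mul]
  rw [fderiv_normsq_apply (hw.contDiff_nX z), fderiv_normsq_apply (hw.contDiff_XX z),
    hw.fderiv_XX]
  have n1 := norm_nX_le hpt hw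
  have n2 := norm_fderiv_nX_le hpt hw v
  have n3 : |⟪nX T w z Y, fderiv ℝ (nX T w z) Y v⟫| ≤
      (κ * ‖bx T z Y‖ ^ 2) * (5 * κ * ‖bx T z Y‖ * ‖v‖) :=
    (abs_real_inner_le_norm _ _).trans (by gcongr)
  have n4 : |⟪XX T w z Y, T.starProjection v⟫| ≤ ‖bx T z Y‖ * ‖v‖ :=
    (abs_real_inner_le_norm _ _).trans (by
      unfold XX; gcongr; exact norm_star_le T v)
  set b := ‖bx T z Y‖ with hbdef
  have hX : ‖XX T w z Y‖ = b := rfl
  rw [hX]
  rw [abs_neg]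
  calc _ ≤ |‖nX T w z Y‖ ^ 2 * (-((b ^ 2) ^ 2)⁻¹ * (2 * ⟪XX T w z Y, T.starProjection v⟫))| +
        |(b ^ 2)⁻¹ * (2 * ⟪nX T w z Y, fderiv ℝ (nX T w z) Y v⟫)| := abs_add_le _ _
    _ = ‖nX T w z Y‖ ^ 2 * (((b ^ 2) ^ 2)⁻¹ * (2 * |⟪XX T w z Y, T.starProjection v⟫|)) +
        (b ^ 2)⁻¹ * (2 * |⟪nX T w z Y, fderiv ℝ (nX T w z) Y v⟫|) := by
        simp only [abs_mul, abs_neg, abs_inv, abs_pow, abs_norm, abs_two, abs_of_pos hb]
    _ ≤ (κ * b ^ 2) ^ 2 * (((b ^ 2) ^ 2)⁻¹ * (2 * (b * ‖v‖))) +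
        (b ^ 2)⁻¹ * (2 * ((κ * b ^ 2) * (5 * κ * b * ‖v‖))) := by gcongr
    _ = _ := by field_simp; ring

/-! ### the base field -/

/-- **`be` is smooth** -/
theorem contDiff_be (hw : Ref T w ε κ) (hε : ε ≤ 1 / 16) (z : E) {t : ℝ} (ht : 0 < t) :
    ContDiff ℝ ∞ (be T w z t) := by
  rw [contDiff_iff_contDiffAt]
  intro Y
  have hb : ContDiffAt ℝ ∞ (bx T z) Y := (contDiff_bx T z).contDiffAt
  rcases eq_or_ne (bx T z Y) 0 with h | h
  · have hev : be T w z t =ᶠ[𝓝 Y] bx T z := by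
      have hc : Continuous fun Y => ‖bx T z Y‖ ^ 2 / t ^ 2 :=
        ((continuous_bx T z).norm.pow 2).div_const _
      have h1 : ∀ᶠ X in 𝓝 Y, ‖bx T z X‖ ^ 2 / t ^ 2 < 1 / 16 := by
        have := hc.tendsto Y
        simp only [h, norm_zero, ne_eq, OfNat.ofNat_ne_zero, not_false_eq_true, zero_pow,
          zero_div] at this
        exact this.eventually (gt_mem_nhds (by norm_num))
      filter_upwards [h1] with X hX
      unfold be
      rw [cb_zero hX.le, zero_smul, add_zero]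
    exact hb.congr_of_eventuallyEq hev
  · unfold be
    have h1 : ContDiffAt ℝ ∞ (fun Y => cb (‖bx T z Y‖ ^ 2 / t ^ 2)) Y :=
      (contDiff_cb.comp (((contDiff_bx T z).norm_sq ℝ).div_const _)).contDiffAt
    have h2 : ContDiffAt ℝ ∞ (fun Y => (vp T w z Y)⁻¹) Y :=
      (hw.contDiffAt_vp h).inv (by have := hw.half_le_vp hε z Y; linarith)
    exact hb.add (h1.smul ((h2.smul (hw.contDiff_gm z).contDiffAt).sub hb))

lemma norm_be_le (hw : Ref T w ε κ) (hε : ε ≤ 1 / 16) (z : E) (t : ℝ) (Y : E) :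
    ‖be T w z t Y‖ ≤ 17 / 8 * ‖bx T z Y‖ := by
  have h1 := hw.half_le_vp hε z Y
  have h2 : (vp T w z Y)⁻¹ ≤ 2 := by
    rw [inv_le_comm₀ (by linarith) (by norm_num)]; linarith
  have h3 : 0 ≤ (vp T w z Y)⁻¹ := by positivity
  have h4 := hw.norm_gm_le' z Y
  set c := cb (‖bx T z Y‖ ^ 2 / t ^ 2) with hc
  have c0 : 0 ≤ c := cb_nonneg _
  have c1 : c ≤ 1 := cb_le_one _
  have e1 : be T w z t Y = (1 - c) • bx T z Y + (c * (vp T w z Y)⁻¹) • gm T w z Y := by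
    unfold be
    rw [← hc, smul_sub, sub_smul, one_smul, smul_smul]; abel
  rw [e1]
  have hb := norm_nonneg (bx T z Y)
  calc _ ≤ (1 - c) * ‖bx T z Y‖ + (c * (vp T w z Y)⁻¹) * ‖gm T w z Y‖ := by
        refine (norm_add_le _ _).trans (le_of_eq ?_)
        rw [norm_smul, norm_smul, Real.norm_eq_abs, Real.norm_eq_abs,
          abs_of_nonneg (by linarith), abs_of_nonneg (by positivity)]
    _ ≤ (1 - c) * ‖bx T z Y‖ + (c * 2) * ‖bx T z Y‖ := by gcongr
    _ ≤ _ := by nlinarith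

lemma star_be (hw : Ref T w ε κ) (z : E) (t : ℝ) (Y : E) :
    T.starProjection (be T w z t Y) = be T w z t Y := by
  unfold be
  rw [map_add, map_smul, map_sub, map_smul, hw.star_gm, starProjection_bx]

/-- `⟪c, be⟫ = 2R` -/
lemma inner_cR_be (hw : Ref T w ε κ) (hε : ε ≤ 1 / 16) (z : E) (t : ℝ) (Y : E) :
    ⟪cR T w z Y, be T w z t Y⟫ = ‖XX T w z Y‖ ^ 2 := by
  have h1 := hw.half_le_vp hε z Y
  have h2 : ⟪cR T w z Y, (vp T w z Y)⁻¹ • gm T w z Y⟫ = ‖XX T w z Y‖ ^ 2 := by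
    rw [inner_smul_right, hw.inner_cR_gm, norm_sq_sg]
    field_simp
  have h3 : ⟪cR T w z Y, bx T z Y⟫ = ‖XX T w z Y‖ ^ 2 := by
    unfold cR XX; rw [real_inner_self_eq_norm_sq]
  unfold be
  rw [inner_add_right, inner_smul_right, inner_sub_right, h2, h3, sub_self, mul_zero, add_zero]

/-- the constant of `norm_fderiv_be_sub_le` -/
noncomputable def cBe : ℝ := 60 + 16 * cT

lemma cBe_nonneg : 0 ≤ cBe := by
  have := cT_nonneg
  unfold cBe; linarith

/-- **`be` is close to the identity** -/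
theorem norm_fderiv_be_sub_le (hw : Ref T w ε κ) (hε : ε ≤ 1 / 16) {z : E} {t : ℝ} (ht : 0 < t)
    (hf : Flat T w z κ (t / 4)) {Y : E} (hY : κ * ‖bx T z Y‖ ≤ 1) (v : E) :
    ‖fderiv ℝ (be T w z t) Y v - T.starProjection v‖ ≤ cBe * κ * ‖bx T z Y‖ * ‖v‖ := by
  have hk := hw.knn
  have hcT := cT_nonneg
  have hC := cBe_nonneg
  rcases lt_or_ge ‖bx T z Y‖ (t / 4) with h | h
  · have hev : be T w z t =ᶠ[𝓝 Y] bx T z := by
      have hc : Continuous fun Y => ‖bx T z Y‖ := (continuous_bx T z).norm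
      filter_upwards [hc.tendsto Y |>.eventually (gt_mem_nhds h)] with X hX
      unfold be
      rw [cb_zero, zero_smul, add_zero]
      rw [div_le_iff₀ (by positivity)]
      calc ‖bx T z X‖ ^ 2 ≤ (t / 4) ^ 2 := by gcongr
        _ = _ := by ring
    rw [hev.fderiv_eq, (hasFDerivAt_bx T z Y).fderiv, sub_self, norm_zero]
    positivity
  · have hpt := hf Y h
    have hb : 0 < ‖bx T z Y‖ := lt_of_lt_of_le (by positivity) h
    have hb0 : bx T z Y ≠ 0 := norm_pos_iff.1 hb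
    have hvp := hw.half_le_vp hε z Y
    have hvp0 : vp T w z Y ≠ 0 := by linarith
    have hvi : (vp T w z Y)⁻¹ ≤ 2 := by
      rw [inv_le_comm₀ (by linarith) (by norm_num)]; linarith
    have hvi0 : 0 ≤ (vp T w z Y)⁻¹ := by positivity
    set b := ‖bx T z Y‖ with hbdef
    -- derivatives
    have dvp : HasFDerivAt (vp T w z) (fderiv ℝ (vp T w z) Y) Y :=
      ((hw.contDiffAt_vp hb0).differentiableAt (by simp)).hasFDerivAt
    have dvi : HasFDerivAt (fun Y => (vp T w z Y)⁻¹)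
        ((-((vp T w z Y) ^ 2)⁻¹) • fderiv ℝ (vp T w z) Y) Y :=
      (hasDerivAt_inv hvp0).comp_hasFDerivAt Y dvp
    have dgm : HasFDerivAt (gm T w z) (fderiv ℝ (gm T w z) Y) Y :=
      ((hw.contDiff_gm z).differentiable (by simp) Y).hasFDerivAt
    have dbx := hasFDerivAt_bx T z Y
    have dsq : HasFDerivAt (fun Y => ‖bx T z Y‖ ^ 2 / t ^ 2)
        ((t ^ 2)⁻¹ • ((2 : ℝ) • innerSL ℝ (bx T z Y))) Y := by
      have := (hw.hasFDerivAt_normsq_XX z Y).const_mul ((t ^ 2)⁻¹)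
      refine this.congr_of_eventuallyEq (Eventually.of_forall fun y => ?_)
      simp only [XX, div_eq_inv_mul]
    have dcb : HasFDerivAt (fun Y => cb (‖bx T z Y‖ ^ 2 / t ^ 2))
        (deriv cb (b ^ 2 / t ^ 2) • ((t ^ 2)⁻¹ • ((2 : ℝ) • innerSL ℝ (bx T z Y)))) Y :=
      ((contDiff_cb (n := 1)).differentiable (by norm_num) _).hasDerivAt.comp_hasFDerivAt Y dsq
    have dD := (dvi.smul dgm).sub dbx
    have dbe := dbx.add (dcb.smul dD)
    have e1 : fderiv ℝ (be T w z t) Y = _ := dbe.fderiv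
    rw [e1]
    simp only [_root_.add_apply, _root_.smul_apply, _root_.sub_apply,
      ContinuousLinearMap.smulRight_apply, innerSL_apply_apply, smul_eq_mul]
    rw [add_sub_cancel_left]
    -- bounds
    have g1 := norm_fderiv_gm_sub_le hpt hw v
    have g2 := norm_gm_sub_le hpt hw
    have g3 := hw.norm_gm_le' z Y
    have g4 := hw.norm_fderiv_vp_le hb0 hpt v
    have g5 := one_sub_vp_le hpt hw
    have g6 : |(vp T w z Y)⁻¹ - 1| ≤ 2 * κ ^ 2 * b ^ 2 := by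
      have : (vp T w z Y)⁻¹ - 1 = (vp T w z Y)⁻¹ * (1 - vp T w z Y) := by field_simp
      rw [this, abs_mul, abs_of_nonneg hvi0, abs_of_nonneg (by linarith [vp_le_one (T := T) (w := w) z Y])]
      calc _ ≤ 2 * (κ ^ 2 * b ^ 2) := by gcongr; linarith [vp_le_one (T := T) (w := w) z Y]
        _ = _ := by ring
    have g7 : ‖(vp T w z Y)⁻¹ • gm T w z Y - bx T z Y‖ ≤ 3 * κ * b ^ 2 := by
      have e2 : (vp T w z Y)⁻¹ • gm T w z Y - bx T z Y =
          (gm T w z Y - bx T z Y) + ((vp T w z Y)⁻¹ - 1) • gm T w z Y := by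
        rw [sub_smul, one_smul]; abel
      rw [e2]
      calc _ ≤ κ * b ^ 2 + (2 * κ ^ 2 * b ^ 2) * b := by
            refine (norm_add_le _ _).trans (add_le_add g2 ?_)
            rw [norm_smul, Real.norm_eq_abs]
            gcongr
        _ = κ * b ^ 2 + 2 * (κ * b) * (κ * b ^ 2) := by ring
        _ ≤ κ * b ^ 2 + 2 * 1 * (κ * b ^ 2) := by gcongr
        _ = _ := by ring
    have g8 : ‖((vp T w z Y)⁻¹ • fderiv ℝ (gm T w z) Y v +
        (-((vp T w z Y) ^ 2)⁻¹ * fderiv ℝ (vp T w z) Y v) • gm T w z Y) - T.starProjection v‖ ≤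
        58 * κ * b * ‖v‖ := by
      have e3 : ((vp T w z Y)⁻¹ • fderiv ℝ (gm T w z) Y v +
          (-((vp T w z Y) ^ 2)⁻¹ * fderiv ℝ (vp T w z) Y v) • gm T w z Y) - T.starProjection v =
          (vp T w z Y)⁻¹ • (fderiv ℝ (gm T w z) Y v - T.starProjection v) +
          ((vp T w z Y)⁻¹ - 1) • T.starProjection v +
          (-((vp T w z Y) ^ 2)⁻¹ * fderiv ℝ (vp T w z) Y v) • gm T w z Y := by
        rw [smul_sub, sub_smul, one_smul]; abel
      rw [e3]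
      have f1 : ‖(vp T w z Y)⁻¹ • (fderiv ℝ (gm T w z) Y v - T.starProjection v)‖ ≤
          2 * (3 * κ * b * ‖v‖) := by
        rw [norm_smul, Real.norm_eq_abs, abs_of_nonneg hvi0]; gcongr
      have f2 : ‖((vp T w z Y)⁻¹ - 1) • T.starProjection v‖ ≤ (2 * κ ^ 2 * b ^ 2) * ‖v‖ := by
        rw [norm_smul, Real.norm_eq_abs]; gcongr; exact norm_star_le T v
      have f3 : ‖(-((vp T w z Y) ^ 2)⁻¹ * fderiv ℝ (vp T w z) Y v) • gm T w z Y‖ ≤
          (4 * (12 * κ ^ 2 * b * ‖v‖)) * b := by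
        rw [norm_smul, Real.norm_eq_abs, abs_mul, abs_neg]
        have : |((vp T w z Y) ^ 2)⁻¹| ≤ 4 := by
          rw [abs_of_nonneg (by positivity), ← inv_pow]
          calc ((vp T w z Y)⁻¹) ^ 2 ≤ 2 ^ 2 := by gcongr
            _ = 4 := by norm_num
        gcongr
      calc _ ≤ 2 * (3 * κ * b * ‖v‖) + (2 * κ ^ 2 * b ^ 2) * ‖v‖ + (4 * (12 * κ ^ 2 * b * ‖v‖)) * b :=
            (norm_add_le _ _).trans (add_le_add ((norm_add_le _ _).trans (add_le_add f1 f2)) f3)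
        _ = (6 + 50 * (κ * b)) * (κ * b * ‖v‖) := by ring
        _ ≤ (6 + 50 * 1) * (κ * b * ‖v‖) := by gcongr
        _ ≤ _ := by
          have : 0 ≤ κ * b * ‖v‖ := by positivity
          nlinarith
    have c0 : 0 ≤ cb (b ^ 2 / t ^ 2) := cb_nonneg _
    have c1 : cb (b ^ 2 / t ^ 2) ≤ 1 := cb_le_one _
    have g9 : |deriv cb (b ^ 2 / t ^ 2) * ((t ^ 2)⁻¹ * (2 * ⟪bx T z Y, v⟫))| * (3 * κ * b ^ 2) ≤
        8 * cT * (κ * b * ‖v‖) := by
      rcases le_or_gt b (t / 2) with hbt | hbt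
      · have i1 : |⟪bx T z Y, v⟫| ≤ b * ‖v‖ := abs_real_inner_le_norm _ _
        have i2 := abs_deriv_cb_le (b ^ 2 / t ^ 2)
        have i3 : b ^ 2 * (t ^ 2)⁻¹ ≤ 1 / 4 := by
          rw [← div_eq_mul_inv, div_le_iff₀ (by positivity)]
          calc b ^ 2 ≤ (t / 2) ^ 2 := by gcongr
            _ = _ := by ring
        rw [abs_mul, abs_mul, abs_mul, abs_two, abs_of_nonneg (by positivity : 0 ≤ (t ^ 2)⁻¹)]
        calc _ ≤ 16 / 3 * cT * ((t ^ 2)⁻¹ * (2 * (b * ‖v‖))) * (3 * κ * b ^ 2) := by gcongr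
          _ = 32 * cT * (κ * b * ‖v‖) * (b ^ 2 * (t ^ 2)⁻¹) := by ring
          _ ≤ 32 * cT * (κ * b * ‖v‖) * (1 / 4) := by gcongr
          _ = _ := by ring
      · have : deriv cb (b ^ 2 / t ^ 2) = 0 := by
          have hev : cb =ᶠ[𝓝 (b ^ 2 / t ^ 2)] fun _ => (1 : ℝ) := by
            have : 1 / 4 < b ^ 2 / t ^ 2 := by
              rw [lt_div_iff₀ (by positivity)]
              calc 1 / 4 * t ^ 2 = (t / 2) ^ 2 := by ring
                _ < b ^ 2 := by gcongr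
            filter_upwards [lt_mem_nhds this] with s hs
            exact cb_one hs.le
          rw [hev.deriv_eq, deriv_const]
        rw [this, zero_mul, abs_zero, zero_mul]
        positivity
    refine (norm_add_le _ _).trans ?_
    rw [norm_smul, norm_smul, Real.norm_eq_abs, Real.norm_eq_abs, abs_of_nonneg c0]
    have g10 : cb (b ^ 2 / t ^ 2) * ‖((vp T w z Y)⁻¹ • fderiv ℝ (gm T w z) Y v +
        (-((vp T w z Y) ^ 2)⁻¹ * fderiv ℝ (vp T w z) Y v) • gm T w z Y) - T.starProjection v‖ ≤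
        1 * (58 * κ * b * ‖v‖) := by gcongr
    have g11 := (mul_le_mul_of_nonneg_left g7 (abs_nonneg
      (deriv cb (b ^ 2 / t ^ 2) * ((t ^ 2)⁻¹ * (2 * ⟪bx T z Y, v⟫))))).trans g9
    refine (add_le_add g10 g11).trans ?_
    have : 0 ≤ κ * b * ‖v‖ := by positivity
    unfold cBe
    nlinarith

end Ref

end Vale.Agent.P214.FM
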