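import Vale.Agent.P214.FM.Ode
import Vale.Agent.P214.ODET.Pw

/-!
# P214, block FM: bridge to the pointwise bounds

The fields `XX, cR, gm, vp, be, ...` are those of the distance of `T` (`XX = bx`); they coincide
with the fields of `ODET`.
-/

open Set Filter Topology MeasureTheory Metric
open scoped RealInnerProductSpace ContDiff

set_option linter.all false

namespace Vale.Agent.P214.FM

open FV ODE

variable {E : Type*} [NormedAddCommGroup E] [InnerProductSpace ℝ E] [FiniteDimensional ℝ E]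

lemma XX_eq (T : Submodule ℝ E) (w : E → E) (z Y : E) : XX T w z Y = bx T z Y := rfl

lemma cR_eq_bx (T : Submodule ℝ E) (w : E → E) (z Y : E) : cR T w z Y = bx T z Y := rfl

lemma XX_eq_ft (T : Submodule ℝ E) (w : E → E) (z Y : E) : XX T w z Y = ODET.ft T w z Y := rfl

lemma omF_eq (T : Submodule ℝ E) (w : E → E) (Y : E) : ODEF.omF T w Y = om T w Y := rfl

lemma cb_eq : cb = ODET.cb := rfl

namespace Adm

variable {T : Submodule ℝ E} {w : E → E} {ε κ h₁ : ℝ} {z : E}

section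

variable [MeasurableSpace E] [BorelSpace E]

lemma cR_eq (H : Adm T w ε κ h₁) (z Y : E) : cR T w z Y = ODET.cRm T w z Y := rfl

lemma gm_eq_gmF (H : Adm T w ε κ h₁) (z Y : E) : gm T w z Y = ODET.gmF T w z Y := by
  unfold gm sg
  rw [XX_eq_ft, ODET.PS_ft H]
  have h1 : ODET.gmF T w z Y + fderiv ℝ w Y (ODET.gmF T w z Y) = D0 w Y (ODET.gmF T w z Y) := by
    rw [D0_apply]
    have : adj (fderiv ℝ w Y) (ODET.gmF T w z Y) = 0 := by
      rw [← ODET.star_gmF H, H.ref.adj_fderiv_star]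
    rw [this, sub_zero]
  rw [h1, J0_D0]

lemma vp_eq (H : Adm T w ε κ h₁) (z Y : E) : vp T w z Y = ODET.vpm T w z Y := rfl

lemma be_eq_beT (H : Adm T w ε κ h₁) (z : E) (t : ℝ) (Y : E) :
    be T w z t Y = ODET.beT T w z t Y := by
  unfold be ODET.beT ODET.beF
  rw [H.vp_eq, H.gm_eq_gmF]
  rfl

lemma be_eq_beT' (H : Adm T w ε κ h₁) (z : E) (t : ℝ) : be T w z t = ODET.beT T w z t :=
  funext (H.be_eq_beT z t)

lemma ze_eq (H : Adm T w ε κ h₁) (z : E) (t : ℝ) :
    ze T w z t = ODEF.zeF T w (ODET.beT T w z t) := by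
  funext Y
  unfold ze ODEF.zeF
  rw [H.be_eq_beT]

lemma xg_eq (H : Adm T w ε κ h₁) (z : E) : xg T w z = ODEF.zeF T w (ODET.gmF T w z) := by
  funext Y
  unfold xg ODEF.zeF
  rw [H.gm_eq_gmF]

lemma rh_eq (H : Adm T w ε κ h₁) (z Y : E) : rh T w h₁ z Y = ODET.rhF T w h₁ z Y := rfl

end

end Adm

end Vale.Agent.P214.FM
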