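import Vale.Agent.P214.FV.Slab
import Vale.Agent.P214.FV.Chain
import Mathlib.Analysis.SpecialFunctions.SmoothTransition
import Mathlib.Analysis.Calculus.FDeriv.Symmetric
import Mathlib.Analysis.Calculus.InverseFunctionTheorem.ContDiff
import Mathlib.Analysis.Calculus.ContDiff.FTaylorSeries

/-!
# P214, block FM: reference graphs and Fermi coordinates

`Ref T w ε κ`: `w : E → E` is a function of the base point `p y` with values in `Tᗮ`; its graph
`Σ = {x + w x : x ∈ T}` is the reference surface.  `A = Dw`.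

* `adj` : the adjoint as a continuous linear map; `Hw w y u v = (D²w(y) v)^* u`.
* `D0 w y = 1 + A - A^*`, `Dm w y u = D0 - Hw w y u`.
* `ret h₁` : smooth retraction, the identity on `‖u‖ ≤ h₁`, bounded by `2 h₁`.
* `Psi T w h₁ Y = Y + w Y - A(Y)^* ret (q Y)`: a global diffeomorphism, the Fermi coordinates in the
  slab `‖q Y‖ < h₁`, where `fderiv Psi Y = Dm w Y (q Y)`.
-/

open Set Filter Topology MeasureTheory Metric
open scoped RealInnerProductSpace ContDiff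

set_option linter.all false

namespace Vale.Agent.P214.FM

open FV

variable {E : Type*} [NormedAddCommGroup E] [InnerProductSpace ℝ E] [FiniteDimensional ℝ E]

/-! ### the adjoint as a real linear map -/

/-- the adjoint, as a continuous linear map -/
noncomputable def adj : (E →L[ℝ] E) →L[ℝ] (E →L[ℝ] E) :=
  LinearMap.mkContinuous
    { toFun := fun A => ContinuousLinearMap.adjoint A
      map_add' := fun A B => map_add _ A B
      map_smul' := fun c A => by
        rw [LinearIsometryEquiv.map_smulₛₗ]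
        simp } 1 (fun A => by simp)

lemma adj_def (A : E →L[ℝ] E) : adj A = ContinuousLinearMap.adjoint A := rfl

lemma inner_adj_left (A : E →L[ℝ] E) (u v : E) : ⟪adj A u, v⟫ = ⟪u, A v⟫ := by
  rw [adj_def, ContinuousLinearMap.adjoint_inner_left]

lemma inner_adj_right (A : E →L[ℝ] E) (u v : E) : ⟪u, adj A v⟫ = ⟪A u, v⟫ := by
  rw [adj_def, ContinuousLinearMap.adjoint_inner_right]

lemma norm_adj (A : E →L[ℝ] E) : ‖adj A‖ = ‖A‖ := by
  rw [adj_def]; exact LinearIsometryEquiv.norm_map _ _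

lemma norm_adj_apply_le (A : E →L[ℝ] E) (u : E) : ‖adj A u‖ ≤ ‖A‖ * ‖u‖ := by
  rw [← norm_adj A]; exact (adj A).le_opNorm u

lemma adj_adj (A : E →L[ℝ] E) : adj (adj A) = A := by
  rw [adj_def, adj_def, ContinuousLinearMap.adjoint_adjoint]

lemma adj_comp (A B : E →L[ℝ] E) : adj (A.comp B) = (adj B).comp (adj A) := by
  rw [adj_def, adj_def, adj_def, ContinuousLinearMap.adjoint_comp]

lemma adj_star (T : Submodule ℝ E) : adj T.starProjection = T.starProjection := by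
  ext v
  refine ext_inner_right ℝ fun z => ?_
  rw [inner_adj_left, inner_star]

lemma adj_id : adj (ContinuousLinearMap.id ℝ E) = ContinuousLinearMap.id ℝ E := by
  ext v
  refine ext_inner_right ℝ fun z => ?_
  rw [inner_adj_left]; rfl

lemma tr_adj (A : E →L[ℝ] E) : tr (adj A) = tr A := by
  rw [tr_eq_sum (stdOrthonormalBasis ℝ E), tr_eq_sum (stdOrthonormalBasis ℝ E)]
  refine Finset.sum_congr rfl fun k _ => ?_
  rw [inner_adj_right, real_inner_comm]

lemma norm_fderiv_apply_le_of_iterated {F : Type*} [NormedAddCommGroup F] [NormedSpace ℝ F]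
    {f : E → F} {y : E} {C : ℝ} (h : ‖iteratedFDeriv ℝ 1 f y‖ ≤ C) (v : E) :
    ‖fderiv ℝ f y v‖ ≤ C * ‖v‖ := by
  rw [norm_iteratedFDeriv_one] at h
  exact ((fderiv ℝ f y).le_opNorm v).trans (by gcongr)

/-! ### reference graphs -/

/-- a reference graph over `T`, with slope at most `ε` and curvature radius at least `1/κ` -/
structure Ref (T : Submodule ℝ E) (w : E → E) (ε κ : ℝ) : Prop where
  smooth : ContDiff ℝ ∞ w
  base : ∀ y, w (T.starProjection y) = w y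
  perp : ∀ y, T.starProjection (w y) = 0
  knn : 0 ≤ κ
  slope : ∀ y, ‖fderiv ℝ w y‖ ≤ ε
  bound : ∀ k, 2 ≤ k → k ≤ 6 → ∀ y, ‖iteratedFDeriv ℝ k w y‖ ≤ κ ^ (k - 1)

/-- second derivative -/
noncomputable def D2 (w : E → E) (y : E) : E →L[ℝ] E →L[ℝ] E := fderiv ℝ (fderiv ℝ w) y

/-- `Hw w y u v = (D²w(y) v)^* u`, the second fundamental form in direction `u` -/
noncomputable def Hw (w : E → E) (y u : E) : E →L[ℝ] E := (adj.comp (D2 w y)).flip u

lemma Hw_apply (w : E → E) (y u v : E) : Hw w y u v = adj (D2 w y v) u := rfl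

lemma inner_Hw (w : E → E) (y u v z : E) : ⟪Hw w y u v, z⟫ = ⟪u, D2 w y v z⟫ := by
  rw [Hw_apply, inner_adj_left]

/-- `1 + A - A^*` -/
noncomputable def D0 (w : E → E) (y : E) : E →L[ℝ] E :=
  ContinuousLinearMap.id ℝ E + fderiv ℝ w y - adj (fderiv ℝ w y)

/-- the differential of the Fermi map -/
noncomputable def Dm (w : E → E) (y u : E) : E →L[ℝ] E := D0 w y - Hw w y u

lemma D0_apply (w : E → E) (y v : E) : D0 w y v = v + fderiv ℝ w y v - adj (fderiv ℝ w y) v := rfl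

lemma Dm_apply (w : E → E) (y u v : E) : Dm w y u v = D0 w y v - Hw w y u v := rfl

namespace Ref

variable {T : Submodule ℝ E} {w : E → E} {ε κ : ℝ}

lemma diff (hw : Ref T w ε κ) : Differentiable ℝ w := hw.smooth.differentiable (by simp)

lemma smooth1 (hw : Ref T w ε κ) : ContDiff ℝ ∞ (fderiv ℝ w) :=
  hw.smooth.fderiv_right (by exact_mod_cast le_rfl)

lemma diff1 (hw : Ref T w ε κ) : Differentiable ℝ (fderiv ℝ w) :=
  hw.smooth1.differentiable (by simp)

lemma smooth2 (hw : Ref T w ε κ) : ContDiff ℝ ∞ (D2 w) :=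
  hw.smooth1.fderiv_right (by exact_mod_cast le_rfl)

lemma diff2 (hw : Ref T w ε κ) : Differentiable ℝ (D2 w) := hw.smooth2.differentiable (by simp)

lemma norm_D2_le (hw : Ref T w ε κ) (y : E) : ‖D2 w y‖ ≤ κ := by
  have h := hw.bound 2 le_rfl (by norm_num) y
  rw [← norm_iteratedFDeriv_fderiv, ← norm_iteratedFDeriv_fderiv, norm_iteratedFDeriv_zero] at h
  unfold D2
  simpa using h

lemma norm_D2_apply_le (hw : Ref T w ε κ) (y v z : E) : ‖D2 w y v z‖ ≤ κ * ‖v‖ * ‖z‖ := by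
  calc ‖D2 w y v z‖ ≤ ‖D2 w y v‖ * ‖z‖ := (D2 w y v).le_opNorm z
    _ ≤ (‖D2 w y‖ * ‖v‖) * ‖z‖ := by gcongr; exact (D2 w y).le_opNorm v
    _ ≤ κ * ‖v‖ * ‖z‖ := by gcongr; exact hw.norm_D2_le y

lemma norm_D3_le (hw : Ref T w ε κ) (y v : E) : ‖fderiv ℝ (D2 w) y v‖ ≤ κ ^ 2 * ‖v‖ := by
  have h := hw.bound 3 (by norm_num) (by norm_num) y
  rw [← norm_iteratedFDeriv_fderiv, ← norm_iteratedFDeriv_fderiv] at h
  exact norm_fderiv_apply_le_of_iterated (f := D2 w) h v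

lemma eps_nonneg (hw : Ref T w ε κ) : 0 ≤ ε := (norm_nonneg _).trans (hw.slope 0)

/-- the differential at a point depends on the base point only -/
lemma fderiv_base (hw : Ref T w ε κ) (y : E) : fderiv ℝ w (T.starProjection y) = fderiv ℝ w y := by
  have h1 : ∀ a : E, T.starProjection a = 0 → (fun z => w (z + a)) = w := by
    intro a ha
    funext z
    rw [← hw.base (z + a), map_add, ha, add_zero, hw.base]
  have h2 : T.starProjection (T.starProjection y - y) = 0 := by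
    rw [map_sub, star_self, sub_self]
  have h3 := h1 _ h2
  conv_rhs => rw [← h3]
  rw [fderiv_comp_add_right]
  simp

lemma D2_base (hw : Ref T w ε κ) (y : E) : D2 w (T.starProjection y) = D2 w y := by
  have h1 : ∀ a : E, T.starProjection a = 0 → (fun z => fderiv ℝ w (z + a)) = fderiv ℝ w := by
    intro a ha
    funext z
    rw [← hw.fderiv_base (z + a), map_add, ha, add_zero, hw.fderiv_base]
  have h2 : T.starProjection (T.starProjection y - y) = 0 := by
    rw [map_sub, star_self, sub_self]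
  have h3 := h1 _ h2
  unfold D2
  conv_rhs => rw [← h3]
  rw [fderiv_comp_add_right]
  simp

/-- `A p = A` -/
lemma fderiv_star (hw : Ref T w ε κ) (y v : E) :
    fderiv ℝ w y (T.starProjection v) = fderiv ℝ w y v := by
  have h1 : w = fun z => w (T.starProjection z) := by funext z; rw [hw.base]
  have h2 : HasFDerivAt (fun z => w (T.starProjection z))
      ((fderiv ℝ w (T.starProjection y)).comp T.starProjection) y :=
    (hw.diff _).hasFDerivAt.comp y T.starProjection.hasFDerivAt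
  rw [← h1, hw.fderiv_base] at h2
  have h3 := h2.fderiv
  conv_rhs => rw [h3]
  rfl

lemma fderiv_co (hw : Ref T w ε κ) (y v : E) : fderiv ℝ w y (co T v) = 0 := by
  rw [co_apply, map_sub, hw.fderiv_star, sub_self]

/-- `p A = 0` -/
lemma star_fderiv (hw : Ref T w ε κ) (y v : E) : T.starProjection (fderiv ℝ w y v) = 0 := by
  have h2 : HasFDerivAt (fun z => T.starProjection (w z))
      (T.starProjection.comp (fderiv ℝ w y)) y :=
    T.starProjection.hasFDerivAt.comp y (hw.diff y).hasFDerivAt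
  have h3 : (fun z => T.starProjection (w z)) = fun _ => 0 := by funext z; rw [hw.perp]
  rw [h3] at h2
  have h4 := h2.fderiv
  rw [fderiv_fun_const] at h4
  have := congrArg (fun L : E →L[ℝ] E => L v) h4
  simpa using this.symm

lemma adj_fderiv_co (hw : Ref T w ε κ) (y v : E) :
    adj (fderiv ℝ w y) (co T v) = adj (fderiv ℝ w y) v := by
  refine ext_inner_right ℝ fun z => ?_
  rw [inner_adj_left, inner_adj_left, inner_co]
  congr 1
  rw [co_apply, hw.star_fderiv, sub_zero]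

lemma adj_fderiv_star (hw : Ref T w ε κ) (y v : E) :
    adj (fderiv ℝ w y) (T.starProjection v) = 0 := by
  refine ext_inner_right ℝ fun z => ?_
  rw [inner_adj_left, inner_star, hw.star_fderiv, inner_zero_right, inner_zero_left]

lemma star_adj_fderiv (hw : Ref T w ε κ) (y v : E) :
    T.starProjection (adj (fderiv ℝ w y) v) = adj (fderiv ℝ w y) v := by
  refine ext_inner_right ℝ fun z => ?_
  rw [inner_star, inner_adj_left, inner_adj_left, hw.fderiv_star]

lemma co_adj_fderiv (hw : Ref T w ε κ) (y v : E) :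
    co T (adj (fderiv ℝ w y) v) = 0 := by
  rw [co_apply, hw.star_adj_fderiv, sub_self]

lemma co_fderiv (hw : Ref T w ε κ) (y v : E) : co T (fderiv ℝ w y v) = fderiv ℝ w y v := by
  rw [co_apply, hw.star_fderiv, sub_zero]

/-- second derivatives -/
lemma star_D2 (hw : Ref T w ε κ) (y v z : E) : T.starProjection (D2 w y v z) = 0 := by
  have h2 : HasFDerivAt (fun y => T.starProjection (fderiv ℝ w y z))
      (T.starProjection.comp ((ContinuousLinearMap.apply ℝ E z).comp (D2 w y))) y :=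
    T.starProjection.hasFDerivAt.comp y
      ((ContinuousLinearMap.apply ℝ E z).hasFDerivAt.comp y (hw.diff1 y).hasFDerivAt)
  have h3 : (fun y => T.starProjection (fderiv ℝ w y z)) = fun _ => 0 := by
    funext y; rw [hw.star_fderiv]
  rw [h3] at h2
  have h4 := h2.fderiv
  rw [fderiv_fun_const] at h4
  have := congrArg (fun L : E →L[ℝ] E => L v) h4
  simpa using this.symm

lemma co_D2 (hw : Ref T w ε κ) (y v z : E) : co T (D2 w y v z) = D2 w y v z := by
  rw [co_apply, hw.star_D2, sub_zero]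

lemma D2_symm (hw : Ref T w ε κ) (y v z : E) : D2 w y v z = D2 w y z v := by
  have h1 : IsSymmSndFDerivAt ℝ w y := by
    refine (hw.smooth.of_le (m := 2) (WithTop.coe_le_coe.2 le_top)).contDiffAt.isSymmSndFDerivAt ?_
    simp
  exact h1 v z

lemma D2_star_right (hw : Ref T w ε κ) (y v z : E) :
    D2 w y v (T.starProjection z) = D2 w y v z := by
  have h2 : HasFDerivAt (fun y => fderiv ℝ w y (T.starProjection z))
      ((ContinuousLinearMap.apply ℝ E (T.starProjection z)).comp (D2 w y)) y :=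
    ((ContinuousLinearMap.apply ℝ E (T.starProjection z)).hasFDerivAt.comp y
      (hw.diff1 y).hasFDerivAt)
  have h2' : HasFDerivAt (fun y => fderiv ℝ w y z)
      ((ContinuousLinearMap.apply ℝ E z).comp (D2 w y)) y :=
    ((ContinuousLinearMap.apply ℝ E z).hasFDerivAt.comp y
      (hw.diff1 y).hasFDerivAt)
  have h3 : (fun y => fderiv ℝ w y (T.starProjection z)) = fun y => fderiv ℝ w y z := by
    funext y; rw [hw.fderiv_star]
  rw [h3] at h2
  have h4 := h2.unique h2'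
  exact congrArg (fun L : E →L[ℝ] E => L v) h4

lemma D2_star_left (hw : Ref T w ε κ) (y v z : E) :
    D2 w y (T.starProjection v) z = D2 w y v z := by
  rw [hw.D2_symm, hw.D2_star_right, hw.D2_symm]

lemma D2_co_left (hw : Ref T w ε κ) (y v z : E) : D2 w y (co T v) z = 0 := by
  rw [co_apply, map_sub]
  show D2 w y v z - D2 w y (T.starProjection v) z = 0
  rw [hw.D2_star_left, sub_self]

lemma D2_co_right (hw : Ref T w ε κ) (y v z : E) : D2 w y v (co T z) = 0 := by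
  rw [hw.D2_symm, hw.D2_co_left]

/-- `Hw` is symmetric -/
lemma Hw_symm (hw : Ref T w ε κ) (y u v z : E) : ⟪Hw w y u v, z⟫ = ⟪v, Hw w y u z⟫ := by
  rw [inner_Hw, real_inner_comm (Hw w y u z) v, inner_Hw, hw.D2_symm]

/-- `Hw` kills `Tᗮ` -/
lemma Hw_co (hw : Ref T w ε κ) (y u v : E) : Hw w y u (co T v) = 0 := by
  rw [Hw_apply]
  have : D2 w y (co T v) = 0 := by ext z; rw [hw.D2_co_left]; rfl
  rw [this]; simp

lemma Hw_star (hw : Ref T w ε κ) (y u v : E) : Hw w y u (T.starProjection v) = Hw w y u v := by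
  have := hw.Hw_co y u v
  rw [co_apply, map_sub, sub_eq_zero] at this
  exact this.symm

/-- `Hw` has values in `T` -/
lemma co_Hw (hw : Ref T w ε κ) (y u v : E) : co T (Hw w y u v) = 0 := by
  refine ext_inner_right ℝ fun z => ?_
  rw [inner_co, hw.Hw_symm, hw.Hw_co, inner_zero_right, inner_zero_left]

lemma star_Hw (hw : Ref T w ε κ) (y u v : E) : T.starProjection (Hw w y u v) = Hw w y u v := by
  have := hw.co_Hw y u v
  rw [co_apply, sub_eq_zero] at this
  exact this.symm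

/-- only the normal part of `u` matters -/
lemma Hw_co_u (hw : Ref T w ε κ) (y u v : E) : Hw w y (co T u) v = Hw w y u v := by
  refine ext_inner_right ℝ fun z => ?_
  rw [inner_Hw, inner_Hw, inner_co, hw.co_D2]

lemma norm_Hw_apply_le (hw : Ref T w ε κ) (y u v : E) : ‖Hw w y u v‖ ≤ κ * ‖u‖ * ‖v‖ := by
  rw [Hw_apply]
  calc ‖adj (D2 w y v) u‖ ≤ ‖D2 w y v‖ * ‖u‖ := norm_adj_apply_le _ _
    _ ≤ (‖D2 w y‖ * ‖v‖) * ‖u‖ := by gcongr; exact (D2 w y).le_opNorm v
    _ ≤ (κ * ‖v‖) * ‖u‖ := by gcongr; exact hw.norm_D2_le y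
    _ = κ * ‖u‖ * ‖v‖ := by ring

lemma norm_Hw_le (hw : Ref T w ε κ) (y u : E) : ‖Hw w y u‖ ≤ κ * ‖u‖ :=
  ContinuousLinearMap.opNorm_le_bound _ (mul_nonneg hw.knn (norm_nonneg _))
    fun v => hw.norm_Hw_apply_le y u v

lemma Hw_base (hw : Ref T w ε κ) (y u v : E) : Hw w (T.starProjection y) u v = Hw w y u v := by
  rw [Hw_apply, Hw_apply, hw.D2_base]

lemma norm_adj_fderiv_apply_le (hw : Ref T w ε κ) (y v : E) : ‖adj (fderiv ℝ w y) v‖ ≤ ε * ‖v‖ :=
  (norm_adj_apply_le _ _).trans (by gcongr; exact hw.slope y)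

lemma norm_fderiv_apply_le (hw : Ref T w ε κ) (y v : E) : ‖fderiv ℝ w y v‖ ≤ ε * ‖v‖ :=
  ((fderiv ℝ w y).le_opNorm v).trans (by gcongr; exact hw.slope y)

end Ref

/-! ### the smooth retraction -/

lemma exists_deriv_bound :
    ∃ C : ℝ, 0 ≤ C ∧ ∀ s, |deriv Real.smoothTransition s| ≤ C := by
  have hc : Continuous (deriv Real.smoothTransition) :=
    (Real.smoothTransition.contDiff (n := 1)).continuous_deriv le_rfl
  obtain ⟨C, hC⟩ := (isCompact_Icc (a := (-1 : ℝ)) (b := 2)).exists_bound_of_continuousOn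
    hc.continuousOn
  refine ⟨max C 0, le_max_right _ _, fun s => ?_⟩
  by_cases hs : s ∈ Icc (-1 : ℝ) 2
  · exact (hC s hs).trans (le_max_left _ _)
  · have h0 : deriv Real.smoothTransition s = 0 := by
      rw [mem_Icc, not_and_or, not_le, not_le] at hs
      rcases hs with hs | hs
      · have : Real.smoothTransition =ᶠ[𝓝 s] fun _ => (0 : ℝ) := by
          filter_upwards [gt_mem_nhds hs] with x hx
          exact Real.smoothTransition.zero_of_nonpos (by linarith)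
        rw [this.deriv_eq]; simp
      · have : Real.smoothTransition =ᶠ[𝓝 s] fun _ => (1 : ℝ) := by
          filter_upwards [lt_mem_nhds hs] with x hx
          exact Real.smoothTransition.one_of_one_le (by linarith)
        rw [this.deriv_eq]; simp
    rw [h0]; simp

/-- bound of the derivative of the smooth transition -/
noncomputable def cT : ℝ := exists_deriv_bound.choose

lemma cT_nonneg : 0 ≤ cT := exists_deriv_bound.choose_spec.1

lemma abs_deriv_le_cT (s : ℝ) : |deriv Real.smoothTransition s| ≤ cT :=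
  exists_deriv_bound.choose_spec.2 s

/-- the largest admissible slope -/
noncomputable def eps0 : ℝ := 1 / (16 * (1 + 4 * cT))

lemma eps0_pos : 0 < eps0 := by
  unfold eps0; have := cT_nonneg; positivity

lemma eps0_le : eps0 ≤ 1 / 16 := by
  unfold eps0
  have := cT_nonneg
  rw [div_le_div_iff₀ (by positivity) (by norm_num)]
  nlinarith

/-- smooth radial retraction, the identity on the ball of radius `h₁` -/
noncomputable def ret (h₁ : ℝ) (u : E) : E := Real.smoothTransition (2 - ‖u‖ ^ 2 / h₁ ^ 2) • u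

lemma contDiff_ret {n : ℕ∞} (h₁ : ℝ) : ContDiff ℝ n (ret h₁ : E → E) := by
  unfold ret
  refine ContDiff.smul ?_ contDiff_id
  exact Real.smoothTransition.contDiff.comp
    (contDiff_const.sub ((contDiff_norm_sq ℝ).div_const _))

lemma ret_eq {h₁ : ℝ} (h : 0 < h₁) {u : E} (hu : ‖u‖ ≤ h₁) : ret h₁ u = u := by
  unfold ret
  rw [Real.smoothTransition.one_of_one_le, one_smul]
  have : ‖u‖ ^ 2 / h₁ ^ 2 ≤ 1 := by
    rw [div_le_one (by positivity)]
    gcongr
  linarith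

lemma norm_ret_le {h₁ : ℝ} (h : 0 < h₁) (u : E) : ‖ret h₁ u‖ ≤ 2 * h₁ := by
  unfold ret
  rw [norm_smul, Real.norm_eq_abs, abs_of_nonneg (Real.smoothTransition.nonneg _)]
  by_cases hu : ‖u‖ ^ 2 ≤ 2 * h₁ ^ 2
  · calc Real.smoothTransition (2 - ‖u‖ ^ 2 / h₁ ^ 2) * ‖u‖ ≤ 1 * ‖u‖ := by
          gcongr; exact Real.smoothTransition.le_one _
      _ ≤ 2 * h₁ := by
          rw [one_mul]
          refine abs_le_of_sq_le_sq' ?_ (by positivity) |>.2
          nlinarith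
  · rw [Real.smoothTransition.zero_of_nonpos, zero_mul]
    · positivity
    · rw [sub_nonpos, le_div_iff₀ (by positivity)]
      linarith

lemma norm_ret_le_norm {h₁ : ℝ} (u : E) : ‖ret h₁ u‖ ≤ ‖u‖ := by
  unfold ret
  rw [norm_smul, Real.norm_eq_abs, abs_of_nonneg (Real.smoothTransition.nonneg _)]
  calc _ ≤ 1 * ‖u‖ := by gcongr; exact Real.smoothTransition.le_one _
    _ = _ := one_mul _

lemma fderiv_ret (h₁ : ℝ) (u v : E) : fderiv ℝ (ret h₁) u v =
    Real.smoothTransition (2 - ‖u‖ ^ 2 / h₁ ^ 2) • v -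
      (deriv Real.smoothTransition (2 - ‖u‖ ^ 2 / h₁ ^ 2) * (2 * ⟪u, v⟫ / h₁ ^ 2)) • u := by
  have h1 : HasFDerivAt (fun u : E => ‖u‖ ^ 2) (2 • (innerSL ℝ u).comp (ContinuousLinearMap.id ℝ E)) u :=
    (hasFDerivAt_id u).norm_sq
  have h2 : HasFDerivAt (fun u : E => 2 - ‖u‖ ^ 2 / h₁ ^ 2)
      (-((h₁ ^ 2)⁻¹ • (2 • (innerSL ℝ u).comp (ContinuousLinearMap.id ℝ E)))) u := by
    have := (h1.mul_const ((h₁ ^ 2)⁻¹)).const_sub 2
    simpa [div_eq_mul_inv] using this
  have h3 : HasDerivAt Real.smoothTransition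
      (deriv Real.smoothTransition (2 - ‖u‖ ^ 2 / h₁ ^ 2)) (2 - ‖u‖ ^ 2 / h₁ ^ 2) :=
    ((Real.smoothTransition.contDiff (n := 1)).differentiable (by norm_num) _).hasDerivAt
  have h4 := (h3.comp_hasFDerivAt u h2).smul (hasFDerivAt_id u)
  have h5 : fderiv ℝ (ret h₁) u = _ := h4.fderiv
  rw [h5]
  simp
  rw [sub_eq_add_neg, sub_eq_add_neg]
  congr 4
  ring

lemma norm_fderiv_ret_le {h₁ : ℝ} (h : 0 < h₁) (u v : E) :
    ‖fderiv ℝ (ret h₁) u v‖ ≤ (1 + 4 * cT) * ‖v‖ := by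
  rw [fderiv_ret]
  have hT := cT_nonneg
  by_cases hu : ‖u‖ ^ 2 ≤ 2 * h₁ ^ 2
  · refine (norm_sub_le _ _).trans ?_
    rw [norm_smul, norm_smul, Real.norm_eq_abs, Real.norm_eq_abs,
      abs_of_nonneg (Real.smoothTransition.nonneg _), abs_mul]
    have h1 : |2 * ⟪u, v⟫ / h₁ ^ 2| ≤ 2 * ‖u‖ * ‖v‖ / h₁ ^ 2 := by
      rw [abs_div, abs_mul, abs_of_pos (show (0 : ℝ) < 2 by norm_num), abs_of_pos (show 0 < h₁ ^ 2 by positivity),
        mul_assoc]
      have := abs_real_inner_le_norm u v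
      gcongr
    have h2 : ‖u‖ ^ 2 / h₁ ^ 2 ≤ 2 := by
      rw [div_le_iff₀ (by positivity)]; exact hu
    calc Real.smoothTransition (2 - ‖u‖ ^ 2 / h₁ ^ 2) * ‖v‖ +
          |deriv Real.smoothTransition (2 - ‖u‖ ^ 2 / h₁ ^ 2)| * |2 * ⟪u, v⟫ / h₁ ^ 2| * ‖u‖
        ≤ 1 * ‖v‖ + cT * (2 * ‖u‖ * ‖v‖ / h₁ ^ 2) * ‖u‖ := by
          gcongr
          · exact Real.smoothTransition.le_one _
          · exact abs_deriv_le_cT _
      _ = ‖v‖ + 2 * cT * ‖v‖ * (‖u‖ ^ 2 / h₁ ^ 2) := by ring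
      _ ≤ ‖v‖ + 2 * cT * ‖v‖ * 2 := by gcongr
      _ = (1 + 4 * cT) * ‖v‖ := by ring
  · have h1 : 2 - ‖u‖ ^ 2 / h₁ ^ 2 < 0 := by
      rw [sub_neg, lt_div_iff₀ (by positivity)]; linarith
    have h2 : deriv Real.smoothTransition (2 - ‖u‖ ^ 2 / h₁ ^ 2) = 0 := by
      have : Real.smoothTransition =ᶠ[𝓝 (2 - ‖u‖ ^ 2 / h₁ ^ 2)] fun _ => (0 : ℝ) := by
        filter_upwards [gt_mem_nhds h1] with x hx
        exact Real.smoothTransition.zero_of_nonpos hx.le
      rw [this.deriv_eq]; simp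
    rw [h2, Real.smoothTransition.zero_of_nonpos h1.le]
    simp
    positivity

/-! ### the Fermi map -/

/-- the Fermi map -/
noncomputable def Psi (T : Submodule ℝ E) (w : E → E) (h₁ : ℝ) (Y : E) : E :=
  Y + w Y - adj (fderiv ℝ w Y) (ret h₁ (co T Y))

namespace Ref

variable {T : Submodule ℝ E} {w : E → E} {ε κ : ℝ}

lemma contDiff_Psi (hw : Ref T w ε κ) (h₁ : ℝ) : ContDiff ℝ ∞ (Psi T w h₁) := by
  unfold Psi
  refine (contDiff_id.add hw.smooth).sub ?_
  exact (adj.contDiff.comp hw.smooth1).clm_apply ((contDiff_ret h₁).comp (co T).contDiff)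

lemma fderiv_Psi (hw : Ref T w ε κ) (h₁ : ℝ) (Y v : E) : fderiv ℝ (Psi T w h₁) Y v =
    v + fderiv ℝ w Y v - (Hw w Y (ret h₁ (co T Y)) v +
      adj (fderiv ℝ w Y) (fderiv ℝ (ret h₁) (co T Y) (co T v))) := by
  have h1 : HasFDerivAt (fun Y => adj (fderiv ℝ w Y)) (adj.comp (D2 w Y)) Y :=
    ((adj (E := E)).hasFDerivAt (x := fderiv ℝ w Y)).comp Y (hw.diff1 Y).hasFDerivAt
  have h2 : HasFDerivAt (fun Y => ret h₁ (co T Y)) ((fderiv ℝ (ret h₁) (co T Y)).comp (co T)) Y :=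
    (((contDiff_ret (n := 1) h₁).differentiable (by norm_num) _).hasFDerivAt).comp Y (co T).hasFDerivAt
  have h3 := ((hasFDerivAt_id Y).add (hw.diff Y).hasFDerivAt).sub (h1.clm_apply h2)
  have h4 : fderiv ℝ (Psi T w h₁) Y = _ := h3.fderiv
  rw [h4]
  simp [Hw_apply]
  abel

/-- in the slab the differential is `Dm` -/
lemma fderiv_Psi_eq (hw : Ref T w ε κ) {h₁ : ℝ} {Y : E} (hY : ‖co T Y‖ < h₁) :
    fderiv ℝ (Psi T w h₁) Y = Dm w Y (co T Y) := by
  have h0 : 0 < h₁ := (norm_nonneg _).trans_lt hY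
  ext v
  rw [hw.fderiv_Psi, ret_eq h0 hY.le]
  have h1 : fderiv ℝ (ret h₁) (co T Y) = ContinuousLinearMap.id ℝ E := by
    have : (ret h₁ : E → E) =ᶠ[𝓝 (co T Y)] id := by
      filter_upwards [(isOpen_lt continuous_norm continuous_const).mem_nhds hY] with z hz
      exact ret_eq h0 (le_of_lt hz)
    rw [this.fderiv_eq, fderiv_id]
  rw [h1, Dm_apply, D0_apply, ContinuousLinearMap.id_apply, hw.adj_fderiv_co]
  abel

lemma Psi_eq (hw : Ref T w ε κ) {h₁ : ℝ} (h0 : 0 < h₁) {Y : E} (hY : ‖co T Y‖ ≤ h₁) :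
    Psi T w h₁ Y = Y + w Y - adj (fderiv ℝ w Y) Y := by
  rw [Psi, ret_eq h0 hY, hw.adj_fderiv_co]

/-- the Fermi map is a small perturbation of the identity -/
lemma norm_fderiv_Psi_sub_le (hw : Ref T w ε κ) {h₁ : ℝ} (h0 : 0 < h₁) (hε : ε ≤ eps0)
    (hκ : κ * h₁ ≤ 1 / 16) (Y v : E) : ‖fderiv ℝ (Psi T w h₁) Y v - v‖ ≤ 1 / 4 * ‖v‖ := by
  rw [hw.fderiv_Psi]
  have hT := cT_nonneg
  have he : ε * (1 + 4 * cT) ≤ 1 / 16 := by
    calc ε * (1 + 4 * cT) ≤ eps0 * (1 + 4 * cT) := by gcongr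
      _ = 1 / 16 := by unfold eps0; field_simp
  have he1 : ε ≤ 1 / 16 := hε.trans eps0_le
  have e1 : v + fderiv ℝ w Y v - (Hw w Y (ret h₁ (co T Y)) v +
      adj (fderiv ℝ w Y) (fderiv ℝ (ret h₁) (co T Y) (co T v))) - v =
      fderiv ℝ w Y v - Hw w Y (ret h₁ (co T Y)) v -
      adj (fderiv ℝ w Y) (fderiv ℝ (ret h₁) (co T Y) (co T v)) := by abel
  rw [e1]
  have h1 : ‖fderiv ℝ w Y v‖ ≤ 1 / 16 * ‖v‖ := (hw.norm_fderiv_apply_le Y v).trans (by gcongr)
  have h2 : ‖Hw w Y (ret h₁ (co T Y)) v‖ ≤ 1 / 8 * ‖v‖ := by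
    refine (hw.norm_Hw_apply_le _ _ _).trans ?_
    gcongr
    calc κ * ‖ret h₁ (co T Y)‖ ≤ κ * (2 * h₁) := by
          have := hw.knn
          gcongr; exact norm_ret_le h0 _
      _ = 2 * (κ * h₁) := by ring
      _ ≤ 1 / 8 := by linarith
  have h3 : ‖adj (fderiv ℝ w Y) (fderiv ℝ (ret h₁) (co T Y) (co T v))‖ ≤ 1 / 16 * ‖v‖ := by
    refine (hw.norm_adj_fderiv_apply_le _ _).trans ?_
    calc ε * ‖fderiv ℝ (ret h₁) (co T Y) (co T v)‖ ≤ ε * ((1 + 4 * cT) * ‖co T v‖) := by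
          have := hw.eps_nonneg
          gcongr
          exact norm_fderiv_ret_le h0 _ _
      _ = (ε * (1 + 4 * cT)) * ‖co T v‖ := by ring
      _ ≤ 1 / 16 * ‖v‖ := by gcongr; exact norm_co_le T v
  calc _ ≤ ‖fderiv ℝ w Y v‖ + ‖Hw w Y (ret h₁ (co T Y)) v‖ +
        ‖adj (fderiv ℝ w Y) (fderiv ℝ (ret h₁) (co T Y) (co T v))‖ :=
      (norm_sub_le _ _).trans (by gcongr; exact norm_sub_le _ _)
    _ ≤ 1 / 16 * ‖v‖ + 1 / 8 * ‖v‖ + 1 / 16 * ‖v‖ := by gcongr
    _ = 1 / 4 * ‖v‖ := by ring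

lemma approx_Psi (hw : Ref T w ε κ) {h₁ : ℝ} (h0 : 0 < h₁) (hε : ε ≤ eps0)
    (hκ : κ * h₁ ≤ 1 / 16) : ApproximatesLinearOn (Psi T w h₁)
      ((ContinuousLinearEquiv.refl ℝ E : E ≃L[ℝ] E) : E →L[ℝ] E) univ (1 / 4) := by
  intro x _ y _
  have hd : Differentiable ℝ (Psi T w h₁) := (hw.contDiff_Psi h₁).differentiable (by simp)
  have h1 : ∀ z ∈ (univ : Set E), HasFDerivWithinAt (fun z => Psi T w h₁ z - z)
      (fderiv ℝ (Psi T w h₁) z - ContinuousLinearMap.id ℝ E) univ z := fun z _ =>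
    (((hd z).hasFDerivAt).sub (hasFDerivAt_id z)).hasFDerivWithinAt
  have h2 : ∀ z ∈ (univ : Set E), ‖fderiv ℝ (Psi T w h₁) z - ContinuousLinearMap.id ℝ E‖ ≤ 1 / 4 :=
    fun z _ => ContinuousLinearMap.opNorm_le_bound _ (by norm_num)
      fun v => hw.norm_fderiv_Psi_sub_le h0 hε hκ z v
  have h3 := (convex_univ (𝕜 := ℝ) (E := E)).norm_image_sub_le_of_norm_hasFDerivWithin_le h1 h2
    (mem_univ y) (mem_univ x)
  calc ‖Psi T w h₁ x - Psi T w h₁ y - ((ContinuousLinearEquiv.refl ℝ E : E ≃L[ℝ] E) : E →L[ℝ] E) (x - y)‖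
      = ‖Psi T w h₁ x - x - (Psi T w h₁ y - y)‖ := by
        congr 1
        simp
        abel
    _ ≤ 1 / 4 * ‖x - y‖ := h3
    _ = _ := by norm_num

/-- the vertical part -/
lemma co_Psi (hw : Ref T w ε κ) (h₁ : ℝ) (Y : E) : co T (Psi T w h₁ Y) = co T Y + w Y := by
  rw [Psi, map_sub, map_add, hw.co_adj_fderiv, sub_zero, co_apply T (w Y), hw.perp, sub_zero]

/-- the base part -/
lemma star_Psi (hw : Ref T w ε κ) (h₁ : ℝ) (Y : E) : T.starProjection (Psi T w h₁ Y) =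
    T.starProjection Y - adj (fderiv ℝ w Y) (ret h₁ (co T Y)) := by
  rw [Psi, map_sub, map_add, hw.star_adj_fderiv, hw.perp, add_zero]

/-- horizontal displacement -/
lemma norm_star_Psi_sub_le (hw : Ref T w ε κ) {h₁ : ℝ} (h0 : 0 < h₁) (Y : E) :
    ‖T.starProjection (Psi T w h₁ Y) - T.starProjection Y‖ ≤ 2 * ε * h₁ := by
  rw [hw.star_Psi, sub_sub_cancel_left, norm_neg]
  calc _ ≤ ε * ‖ret h₁ (co T Y)‖ := hw.norm_adj_fderiv_apply_le _ _
    _ ≤ ε * (2 * h₁) := by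
        have := hw.eps_nonneg
        gcongr; exact norm_ret_le h0 _
    _ = _ := by ring

lemma norm_star_Psi_sub_le' (hw : Ref T w ε κ) (h₁ : ℝ) (Y : E) :
    ‖T.starProjection (Psi T w h₁ Y) - T.starProjection Y‖ ≤ ε * ‖co T Y‖ := by
  rw [hw.star_Psi, sub_sub_cancel_left, norm_neg]
  calc _ ≤ ε * ‖ret h₁ (co T Y)‖ := hw.norm_adj_fderiv_apply_le _ _
    _ ≤ ε * ‖co T Y‖ := by
        have := hw.eps_nonneg
        gcongr; exact norm_ret_le_norm _

/-- comparison of the two heights over `Σ` -/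
lemma norm_height_le (hw : Ref T w ε κ) (h₁ : ℝ) (Y : E) :
    ‖co T Y - (co T (Psi T w h₁ Y) - w (Psi T w h₁ Y))‖ ≤ ε ^ 2 * ‖co T Y‖ := by
  rw [hw.co_Psi]
  have e1 : co T Y - (co T Y + w Y - w (Psi T w h₁ Y)) = w (Psi T w h₁ Y) - w Y := by abel
  rw [e1, ← hw.base (Psi T w h₁ Y), ← hw.base Y]
  have h1 := (convex_univ (𝕜 := ℝ) (E := E)).norm_image_sub_le_of_norm_hasFDerivWithin_le
    (f := w) (f' := fderiv ℝ w) (C := ε) (fun z _ => (hw.diff z).hasFDerivAt.hasFDerivWithinAt)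
    (fun z _ => hw.slope z) (mem_univ (T.starProjection Y)) (mem_univ (T.starProjection (Psi T w h₁ Y)))
  refine h1.trans ?_
  have := hw.norm_star_Psi_sub_le' h₁ Y
  have := hw.eps_nonneg
  calc ε * _ ≤ ε * (ε * ‖co T Y‖) := by gcongr
    _ = _ := by ring

end Ref

/-- the inverse of the Fermi map -/
noncomputable def PsiInv (T : Submodule ℝ E) (w : E → E) (h₁ : ℝ) : E → E :=
  Function.invFun (Psi T w h₁)

/-- the inverse of the differential of the Fermi map -/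
noncomputable def Jm (T : Submodule ℝ E) (w : E → E) (h₁ : ℝ) (Y : E) : E →L[ℝ] E :=
  ContinuousLinearMap.inverse (fderiv ℝ (Psi T w h₁) Y)

/-- admissible reference graph for Fermi coordinates of height `h₁` -/
structure Adm (T : Submodule ℝ E) (w : E → E) (ε κ h₁ : ℝ) : Prop where
  ref : Ref T w ε κ
  hpos : 0 < h₁
  hε : ε ≤ eps0
  hκ : κ * h₁ ≤ 1 / 16

namespace Adm

variable {T : Submodule ℝ E} {w : E → E} {ε κ h₁ : ℝ}

/-- the Fermi map as a homeomorphism -/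
noncomputable def hom (H : Adm T w ε κ h₁) : E ≃ₜ E :=
  (H.ref.approx_Psi H.hpos H.hε H.hκ).toHomeomorph _ (by
    rcases subsingleton_or_nontrivial E with h | h
    · exact Or.inl h
    · refine Or.inr ?_
      have : ‖((ContinuousLinearEquiv.refl ℝ E).symm : E →L[ℝ] E)‖₊ = 1 := by
        have h1 : ((ContinuousLinearEquiv.refl ℝ E).symm : E →L[ℝ] E) = ContinuousLinearMap.id ℝ E := rfl
        rw [h1]
        exact ContinuousLinearMap.nnnorm_id
      rw [this, inv_one]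
      norm_num)

lemma hom_apply (H : Adm T w ε κ h₁) (Y : E) : H.hom Y = Psi T w h₁ Y := rfl

lemma PsiInv_eq (H : Adm T w ε κ h₁) (y : E) : PsiInv T w h₁ y = H.hom.symm y := by
  have h1 : Function.LeftInverse (PsiInv T w h₁) (Psi T w h₁) :=
    Function.leftInverse_invFun H.hom.injective
  have h2 := h1 (H.hom.symm y)
  rw [← H.hom_apply, H.hom.apply_symm_apply] at h2
  exact h2

lemma PsiInv_Psi (H : Adm T w ε κ h₁) (Y : E) : PsiInv T w h₁ (Psi T w h₁ Y) = Y := by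
  rw [H.PsiInv_eq, ← H.hom_apply, H.hom.symm_apply_apply]

lemma Psi_PsiInv (H : Adm T w ε κ h₁) (y : E) : Psi T w h₁ (PsiInv T w h₁ y) = y := by
  rw [H.PsiInv_eq, ← H.hom_apply, H.hom.apply_symm_apply]

/-- the differential as an equivalence -/
lemma exists_equiv (H : Adm T w ε κ h₁) (Y : E) :
    ∃ L : E ≃L[ℝ] E, (L : E →L[ℝ] E) = fderiv ℝ (Psi T w h₁) Y := by
  have h1 : Function.Injective (fderiv ℝ (Psi T w h₁) Y) := by
    rw [injective_iff_map_eq_zero]
    intro v hv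
    have := H.ref.norm_fderiv_Psi_sub_le H.hpos H.hε H.hκ Y v
    rw [hv, zero_sub, norm_neg] at this
    have h2 : ‖v‖ = 0 := le_antisymm (by linarith [norm_nonneg v]) (norm_nonneg v)
    exact norm_eq_zero.1 h2
  let L : E ≃ₗ[ℝ] E := LinearEquiv.ofInjectiveEndo (fderiv ℝ (Psi T w h₁) Y : E →ₗ[ℝ] E) h1
  refine ⟨L.toContinuousLinearEquiv, ?_⟩
  ext v
  rfl

lemma Jm_comp (H : Adm T w ε κ h₁) (Y : E) :
    (Jm T w h₁ Y).comp (fderiv ℝ (Psi T w h₁) Y) = ContinuousLinearMap.id ℝ E := by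
  obtain ⟨L, hL⟩ := H.exists_equiv Y
  rw [Jm, ← hL, ContinuousLinearMap.inverse_equiv]
  exact L.coe_symm_comp_coe

lemma comp_Jm (H : Adm T w ε κ h₁) (Y : E) :
    (fderiv ℝ (Psi T w h₁) Y).comp (Jm T w h₁ Y) = ContinuousLinearMap.id ℝ E := by
  obtain ⟨L, hL⟩ := H.exists_equiv Y
  rw [Jm, ← hL, ContinuousLinearMap.inverse_equiv]
  exact L.coe_comp_coe_symm

lemma contDiff_Jm (H : Adm T w ε κ h₁) : ContDiff ℝ ∞ (Jm T w h₁) := by
  rw [contDiff_iff_contDiffAt]
  intro Y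
  obtain ⟨L, hL⟩ := H.exists_equiv Y
  have h1 : ContDiff ℝ ∞ (fderiv ℝ (Psi T w h₁)) :=
    (H.ref.contDiff_Psi h₁).fderiv_right (by exact_mod_cast le_rfl)
  have h2 : ContDiffAt ℝ ∞ (ContinuousLinearMap.inverse : (E →L[ℝ] E) → (E →L[ℝ] E))
      (fderiv ℝ (Psi T w h₁) Y) := by
    rw [← hL]; exact contDiffAt_map_inverse L
  exact h2.comp Y h1.contDiffAt

lemma contDiff_PsiInv (H : Adm T w ε κ h₁) : ContDiff ℝ ∞ (PsiInv T w h₁) := by
  have h0 : PsiInv T w h₁ = H.hom.symm := funext H.PsiInv_eq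
  rw [h0]
  choose L hL using H.exists_equiv
  refine H.hom.contDiff_symm (f₀' := L) (fun a => ?_) (H.ref.contDiff_Psi h₁)
  rw [hL a]
  exact ((H.ref.contDiff_Psi h₁).differentiable (by simp) a).hasFDerivAt

lemma fderiv_PsiInv (H : Adm T w ε κ h₁) (Y : E) :
    fderiv ℝ (PsiInv T w h₁) (Psi T w h₁ Y) = Jm T w h₁ Y := by
  have h1 : HasFDerivAt (Psi T w h₁) (fderiv ℝ (Psi T w h₁) Y) Y :=
    ((H.ref.contDiff_Psi h₁).differentiable (by simp) Y).hasFDerivAt
  have h2 : HasFDerivAt (PsiInv T w h₁) (fderiv ℝ (PsiInv T w h₁) (Psi T w h₁ Y)) (Psi T w h₁ Y) :=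
    (H.contDiff_PsiInv.differentiable (by simp) _).hasFDerivAt
  have h3 := h2.comp Y h1
  have h4 : (PsiInv T w h₁ ∘ Psi T w h₁) = id := funext H.PsiInv_Psi
  rw [h4] at h3
  have h5 := h3.unique (hasFDerivAt_id Y)
  calc fderiv ℝ (PsiInv T w h₁) (Psi T w h₁ Y)
      = (fderiv ℝ (PsiInv T w h₁) (Psi T w h₁ Y)).comp
        ((fderiv ℝ (Psi T w h₁) Y).comp (Jm T w h₁ Y)) := by
          rw [H.comp_Jm, ContinuousLinearMap.comp_id]
    _ = Jm T w h₁ Y := by
          rw [← ContinuousLinearMap.comp_assoc, h5, ContinuousLinearMap.id_comp]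

lemma norm_Jm_apply_le (H : Adm T w ε κ h₁) (Y v : E) : ‖Jm T w h₁ Y v‖ ≤ 4 / 3 * ‖v‖ := by
  have h1 := H.ref.norm_fderiv_Psi_sub_le H.hpos H.hε H.hκ Y (Jm T w h₁ Y v)
  have h2 : fderiv ℝ (Psi T w h₁) Y (Jm T w h₁ Y v) = v :=
    congrArg (fun L : E →L[ℝ] E => L v) (H.comp_Jm Y)
  rw [h2] at h1
  have h3 : ‖Jm T w h₁ Y v‖ ≤ ‖v‖ + ‖v - Jm T w h₁ Y v‖ := by
    calc ‖Jm T w h₁ Y v‖ = ‖v - (v - Jm T w h₁ Y v)‖ := by congr 1; abel
      _ ≤ _ := norm_sub_le _ _
  linarith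

lemma norm_Jm_le (H : Adm T w ε κ h₁) (Y : E) : ‖Jm T w h₁ Y‖ ≤ 4 / 3 :=
  ContinuousLinearMap.opNorm_le_bound _ (by norm_num) (H.norm_Jm_apply_le Y)

end Adm

end Vale.Agent.P214.FM
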