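import Vale.Agent.P214.FM.Cyl
import Vale.Agent.P214.ODE.Pack

/-!
# P214, block FM: the radial objects on the reference graph

Centre `z ∈ T`.  `XX = bx` = base position of the foot point relative to the centre, `‖XX‖² = 2R`,
`cR` = differential of `R` in the base, `sg = P_S XX`, `gm = grad_g R`, `vp = |dR|²/(2R)`,
`be = gm / vp` away from the centre, `om` = vertical displacement, `rh` = ambient gradient of `R`.
-/

open Set Filter Topology MeasureTheory Metric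
open scoped RealInnerProductSpace ContDiff

set_option linter.all false

namespace Vale.Agent.P214.FM

open FV ODE

variable {E : Type*} [NormedAddCommGroup E] [InnerProductSpace ℝ E] [FiniteDimensional ℝ E]

/-! ### inverses -/

/-- derivative of a family of inverses -/
lemma fderiv_inv_apply {D J : E → E →L[ℝ] E} {y : E} (hD : DifferentiableAt ℝ D y)
    (hJ : DifferentiableAt ℝ J y) (h1 : ∀ z, (J z).comp (D z) = ContinuousLinearMap.id ℝ E)
    (h2 : (D y).comp (J y) = ContinuousLinearMap.id ℝ E) (v : E) :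
    fderiv ℝ J y v = -((J y).comp ((fderiv ℝ D y v).comp (J y))) := by
  have h3 := (hJ.hasFDerivAt.clm_comp hD.hasFDerivAt)
  have h4 : (fun z => (J z).comp (D z)) = fun _ => ContinuousLinearMap.id ℝ E := funext h1
  rw [h4] at h3
  have h5 := h3.unique (hasFDerivAt_const (ContinuousLinearMap.id ℝ E) y)
  have h6 := congrArg (fun L : E →L[ℝ] (E →L[ℝ] E) => (L v).comp (J y)) h5
  simp only [_root_.add_apply, ContinuousLinearMap.comp_apply,
    ContinuousLinearMap.compL_apply, ContinuousLinearMap.flip_apply, _root_.zero_apply,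
    ContinuousLinearMap.zero_comp, ContinuousLinearMap.add_comp] at h6
  rw [ContinuousLinearMap.comp_assoc, ContinuousLinearMap.comp_assoc, h2,
    ContinuousLinearMap.comp_id] at h6
  rw [← add_eq_zero_iff_eq_neg, add_comm]
  exact h6

/-- the inverse of `D0` -/
noncomputable def J0 (w : E → E) (y : E) : E →L[ℝ] E := ContinuousLinearMap.inverse (D0 w y)

lemma norm_le_norm_D0 (w : E → E) (y v : E) : ‖v‖ ≤ ‖D0 w y v‖ := by
  have h1 := Ref.inner_D0_self w y v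
  have h2 := real_inner_le_norm (D0 w y v) v
  rcases (norm_nonneg v).eq_or_lt with h | h
  · rw [← h]; positivity
  · nlinarith

lemma exists_equiv_D0 (w : E → E) (y : E) :
    ∃ L : E ≃L[ℝ] E, (L : E →L[ℝ] E) = D0 w y := by
  have h1 : Function.Injective (D0 w y) := by
    rw [injective_iff_map_eq_zero]
    intro v hv
    have := norm_le_norm_D0 w y v
    rw [hv, norm_zero] at this
    exact norm_le_zero_iff.1 this
  let L : E ≃ₗ[ℝ] E := LinearEquiv.ofInjectiveEndo (D0 w y : E →ₗ[ℝ] E) h1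
  refine ⟨L.toContinuousLinearEquiv, ?_⟩
  ext v
  rfl

lemma J0_comp_D0 (w : E → E) (y : E) : (J0 w y).comp (D0 w y) = ContinuousLinearMap.id ℝ E := by
  obtain ⟨L, hL⟩ := exists_equiv_D0 w y
  rw [J0, ← hL, ContinuousLinearMap.inverse_equiv]
  exact L.coe_symm_comp_coe

lemma D0_comp_J0 (w : E → E) (y : E) : (D0 w y).comp (J0 w y) = ContinuousLinearMap.id ℝ E := by
  obtain ⟨L, hL⟩ := exists_equiv_D0 w y
  rw [J0, ← hL, ContinuousLinearMap.inverse_equiv]
  exact L.coe_comp_coe_symm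

lemma J0_D0 (w : E → E) (y v : E) : J0 w y (D0 w y v) = v :=
  congrArg (fun L : E →L[ℝ] E => L v) (J0_comp_D0 w y)

lemma D0_J0 (w : E → E) (y v : E) : D0 w y (J0 w y v) = v :=
  congrArg (fun L : E →L[ℝ] E => L v) (D0_comp_J0 w y)

lemma norm_J0_apply_le (w : E → E) (y v : E) : ‖J0 w y v‖ ≤ ‖v‖ := by
  have := norm_le_norm_D0 w y (J0 w y v)
  rwa [D0_J0] at this

lemma norm_adj_J0_apply_le (w : E → E) (y v : E) : ‖adj (J0 w y) v‖ ≤ ‖v‖ := by
  have h1 : ‖J0 w y‖ ≤ 1 := ContinuousLinearMap.opNorm_le_bound _ zero_le_one fun v => by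
    rw [one_mul]; exact norm_J0_apply_le w y v
  calc _ ≤ ‖J0 w y‖ * ‖v‖ := norm_adj_apply_le _ _
    _ ≤ 1 * ‖v‖ := by gcongr
    _ = ‖v‖ := one_mul _

namespace Ref

variable {T : Submodule ℝ E} {w : E → E} {ε κ : ℝ}

lemma contDiff_D0 (hw : Ref T w ε κ) : ContDiff ℝ ∞ (D0 w) := by
  unfold D0
  exact (contDiff_const.add hw.smooth1).sub ((adj (E := E)).contDiff.comp hw.smooth1)

lemma contDiff_J0 (hw : Ref T w ε κ) : ContDiff ℝ ∞ (J0 w) := by
  rw [contDiff_iff_contDiffAt]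
  intro Y
  obtain ⟨L, hL⟩ := exists_equiv_D0 w Y
  have h2 : ContDiffAt ℝ ∞ (ContinuousLinearMap.inverse : (E →L[ℝ] E) → (E →L[ℝ] E))
      (D0 w Y) := by
    rw [← hL]; exact contDiffAt_map_inverse L
  exact h2.comp Y hw.contDiff_D0.contDiffAt

/-- the derivative of `D0` in direction `v` -/
noncomputable def _root_.Vale.Agent.P214.FM.Kd (w : E → E) (y v : E) : E →L[ℝ] E :=
  D2 w y v - adj (D2 w y v)

lemma fderiv_D0 (hw : Ref T w ε κ) (y v : E) : fderiv ℝ (D0 w) y v = Kd w y v := by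
  have h1 : HasFDerivAt (fun Y => adj (fderiv ℝ w Y)) (adj.comp (D2 w y)) y :=
    ((adj (E := E)).hasFDerivAt (x := fderiv ℝ w y)).comp y (hw.diff1 y).hasFDerivAt
  have h2 : HasFDerivAt (D0 w) (D2 w y - adj.comp (D2 w y)) y := by
    have := ((hw.diff1 y).hasFDerivAt.const_add (ContinuousLinearMap.id ℝ E)).sub h1
    exact this
  rw [h2.fderiv]
  rfl

lemma norm_Kd_apply_le (hw : Ref T w ε κ) (y v z : E) : ‖Kd w y v z‖ ≤ 2 * κ * ‖v‖ * ‖z‖ := by
  have h1 := hw.norm_D2_apply_le y v z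
  have h2 : ‖adj (D2 w y v) z‖ ≤ κ * ‖v‖ * ‖z‖ := by
    refine (norm_adj_apply_le _ _).trans ?_
    gcongr
    refine ((D2 w y).le_opNorm v).trans ?_
    gcongr
    exact hw.norm_D2_le y
  calc ‖Kd w y v z‖ = ‖D2 w y v z - adj (D2 w y v) z‖ := rfl
    _ ≤ κ * ‖v‖ * ‖z‖ + κ * ‖v‖ * ‖z‖ := (norm_sub_le _ _).trans (add_le_add h1 h2)
    _ = _ := by ring

lemma fderiv_J0 (hw : Ref T w ε κ) (y v : E) :
    fderiv ℝ (J0 w) y v = -((J0 w y).comp ((Kd w y v).comp (J0 w y))) := by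
  rw [fderiv_inv_apply (hw.contDiff_D0.differentiable (by simp) y)
    (hw.contDiff_J0.differentiable (by simp) y) (J0_comp_D0 w) (D0_comp_J0 w y), hw.fderiv_D0]

/-- `P_S = D₀ p J₀` -/
lemma PS_eq (hw : Ref T w ε κ) (y v : E) :
    PS T w y v = D0 w y (T.starProjection (J0 w y v)) := by
  rw [← hw.PS_D0, D0_J0]

lemma J0_PS (hw : Ref T w ε κ) (y v : E) : J0 w y (PS T w y v) = T.starProjection (J0 w y v) := by
  rw [hw.PS_eq, J0_D0]

lemma PS_self (y v : E) : PS T w y (PS T w y v) = PS T w y v := star_self _ v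

lemma inner_PS (y v v' : E) : ⟪PS T w y v, v'⟫ = ⟪v, PS T w y v'⟫ := inner_star _ v v'

lemma contDiff_PS (hw : Ref T w ε κ) : ContDiff ℝ ∞ (PS T w) := by
  have h1 : PS T w = fun y => (D0 w y).comp (T.starProjection.comp (J0 w y)) := by
    funext y; ext v; rw [hw.PS_eq]; rfl
  rw [h1]
  exact hw.contDiff_D0.clm_comp (contDiff_const.clm_comp hw.contDiff_J0)

/-- derivative of the projection onto the tangent plane -/
lemma fderiv_PS (hw : Ref T w ε κ) (y v x : E) : fderiv ℝ (PS T w) y v x =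
    Kd w y v (T.starProjection (J0 w y x)) - PS T w y (Kd w y v (J0 w y x)) := by
  have h1 : HasFDerivAt (PS T w) (fderiv ℝ (PS T w) y) y :=
    (hw.contDiff_PS.differentiable (by simp) y).hasFDerivAt
  have h2 : HasFDerivAt (D0 w) (fderiv ℝ (D0 w) y) y :=
    (hw.contDiff_D0.differentiable (by simp) y).hasFDerivAt
  -- differentiate `P_S D₀ x' = D₀ p x'`
  set x' := J0 w y x with hx'
  have h3 : HasFDerivAt (fun y => PS T w y (D0 w y x'))
      ((PS T w y).comp ((fderiv ℝ (D0 w) y).flip x') + (fderiv ℝ (PS T w) y).flip (D0 w y x')) y := by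
    have ha : HasFDerivAt (fun y => D0 w y x') ((fderiv ℝ (D0 w) y).flip x') y := by
      have := h2.clm_apply (hasFDerivAt_const x' y)
      simpa using this
    have := h1.clm_apply ha
    exact this
  have h4 : HasFDerivAt (fun y => D0 w y (T.starProjection x'))
      ((fderiv ℝ (D0 w) y).flip (T.starProjection x')) y := by
    have := h2.clm_apply (hasFDerivAt_const (T.starProjection x') y)
    simpa using this
  have h5 : (fun y => PS T w y (D0 w y x')) = fun y => D0 w y (T.starProjection x') :=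
    funext fun y => hw.PS_D0 y x'
  rw [h5] at h3
  have h6 := congrArg (fun L : E →L[ℝ] E => L v) (h3.unique h4)
  simp only [_root_.add_apply, ContinuousLinearMap.comp_apply, ContinuousLinearMap.flip_apply,
    hw.fderiv_D0] at h6
  rw [hx', D0_J0] at h6
  rw [← h6, hx']
  abel

lemma norm_fderiv_PS_le (hw : Ref T w ε κ) (y v x : E) :
    ‖fderiv ℝ (PS T w) y v x‖ ≤ 4 * κ * ‖v‖ * ‖x‖ := by
  rw [hw.fderiv_PS]
  have hk := hw.knn
  have hJ := norm_J0_apply_le w y x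
  have h1 : ‖Kd w y v (T.starProjection (J0 w y x))‖ ≤ 2 * κ * ‖v‖ * ‖x‖ := by
    refine (hw.norm_Kd_apply_le _ _ _).trans ?_
    gcongr
    exact (norm_star_le T _).trans hJ
  have h2 : ‖PS T w y (Kd w y v (J0 w y x))‖ ≤ 2 * κ * ‖v‖ * ‖x‖ := by
    refine (norm_star_le _ _).trans ((hw.norm_Kd_apply_le _ _ _).trans ?_)
    gcongr
  calc _ ≤ 2 * κ * ‖v‖ * ‖x‖ + 2 * κ * ‖v‖ * ‖x‖ := (norm_sub_le _ _).trans (add_le_add h1 h2)
    _ = _ := by ring

end Ref

/-! ### the position of the foot point -/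

/-- position of the foot point relative to the centre -/
noncomputable def XX (T : Submodule ℝ E) (w : E → E) (z Y : E) : E := bx T z Y

/-- the differential of `R = ‖XX‖²/2` in the base -/
noncomputable def cR (T : Submodule ℝ E) (w : E → E) (z Y : E) : E := bx T z Y

/-- tangential part of the position -/
noncomputable def sg (T : Submodule ℝ E) (w : E → E) (z Y : E) : E := PS T w Y (XX T w z Y)

/-- normal part of the position -/
noncomputable def nX (T : Submodule ℝ E) (w : E → E) (z Y : E) : E := XX T w z Y - sg T w z Y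

/-- `grad_g R` -/
noncomputable def gm (T : Submodule ℝ E) (w : E → E) (z Y : E) : E := J0 w Y (sg T w z Y)

/-- `|dR|²_g/(2R)`, equal to `1` on the fibre over the centre -/
noncomputable def vp (T : Submodule ℝ E) (w : E → E) (z Y : E) : ℝ :=
  1 - ‖nX T w z Y‖ ^ 2 / ‖XX T w z Y‖ ^ 2

/-- cut-off near the centre: `0` on `[0, 1/16]`, `1` on `[1/4, ∞)` -/
noncomputable def cb (s : ℝ) : ℝ := Real.smoothTransition ((16 * s - 1) / 3)

/-- the base field `grad_g R / vp`, replaced by `bx` near the centre -/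
noncomputable def be (T : Submodule ℝ E) (w : E → E) (z : E) (t : ℝ) (Y : E) : E :=
  bx T z Y + cb (‖bx T z Y‖ ^ 2 / t ^ 2) • ((vp T w z Y)⁻¹ • gm T w z Y - bx T z Y)

/-- the vertical displacement -/
noncomputable def om (T : Submodule ℝ E) (w : E → E) (Y : E) : E :=
  co T Y - adj (fderiv ℝ w Y) (co T Y)

/-- the ambient gradient of `R` -/
noncomputable def rh (T : Submodule ℝ E) (w : E → E) (h₁ : ℝ) (z Y : E) : E :=
  adj (Jm T w h₁ Y) (cR T w z Y)

/-- `DΨ(be)` -/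
noncomputable def ze (T : Submodule ℝ E) (w : E → E) (z : E) (t : ℝ) (Y : E) : E :=
  Dm w Y (co T Y) (be T w z t Y)

/-- `DΨ(grad_g R)` -/
noncomputable def xg (T : Submodule ℝ E) (w : E → E) (z Y : E) : E :=
  Dm w Y (co T Y) (gm T w z Y)

namespace Ref

variable [MeasurableSpace E] [BorelSpace E]
variable {T : Submodule ℝ E} {w : E → E} {ε κ : ℝ} {z : E}

lemma contDiff_XX (hw : Ref T w ε κ) (z : E) : ContDiff ℝ ∞ (XX T w z) := by
  unfold XX
  exact contDiff_bx T z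

lemma hasFDerivAt_XX (hw : Ref T w ε κ) (z Y : E) :
    HasFDerivAt (XX T w z) (T.starProjection) Y := by
  unfold XX
  exact hasFDerivAt_bx T z Y

lemma fderiv_XX (hw : Ref T w ε κ) (z Y v : E) :
    fderiv ℝ (XX T w z) Y v = T.starProjection v := by
  rw [(hw.hasFDerivAt_XX z Y).fderiv]

lemma norm_w_sub_le (hw : Ref T w ε κ) (z Y : E) : ‖w Y - w z‖ ≤ ε * ‖bx T z Y‖ := by
  rw [← hw.base Y, ← hw.base z, bx_eq]
  exact (convex_univ (𝕜 := ℝ) (E := E)).norm_image_sub_le_of_norm_hasFDerivWithin_le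
    (f := w) (f' := fderiv ℝ w) (C := ε) (fun z _ => (hw.diff z).hasFDerivAt.hasFDerivWithinAt)
    (fun z _ => hw.slope z) (mem_univ _) (mem_univ _)

lemma norm_bx_le_XX (hw : Ref T w ε κ) (z Y : E) : ‖bx T z Y‖ ≤ ‖XX T w z Y‖ := le_rfl

lemma norm_XX_le (hw : Ref T w ε κ) (hε : ε ≤ 1 / 16) (z Y : E) :
    ‖XX T w z Y‖ ≤ 17 / 16 * ‖bx T z Y‖ := by
  have := norm_nonneg (bx T z Y)
  unfold XX
  linarith

lemma XX_eq_zero_iff (hw : Ref T w ε κ) (z Y : E) : XX T w z Y = 0 ↔ bx T z Y = 0 := Iff.rfl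

lemma star_XX (hw : Ref T w ε κ) (z Y : E) : T.starProjection (XX T w z Y) = bx T z Y :=
  starProjection_bx T z Y

/-- `R = ‖XX‖²/2` has base differential `cR` -/
lemma hasFDerivAt_normsq_XX (hw : Ref T w ε κ) (z Y : E) :
    HasFDerivAt (fun Y => ‖XX T w z Y‖ ^ 2) ((2 : ℝ) • innerSL ℝ (cR T w z Y)) Y := by
  have h1 := (hw.hasFDerivAt_XX z Y).norm_sq
  refine h1.congr_fderiv ?_
  ext v
  have h2 : ⟪cR T w z Y, v⟫ = ⟪XX T w z Y, T.starProjection v⟫ := by
    unfold cR XX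
    rw [← inner_star, starProjection_bx]
  simp only [two_smul, _root_.add_apply, ContinuousLinearMap.comp_apply, innerSL_apply_apply,
    h2]

/-- `⟪σ, D₀ v⟫ = ⟪c, v⟫` -/
lemma inner_sg_D0 (hw : Ref T w ε κ) (z Y v : E) : ⟪sg T w z Y, D0 w Y v⟫ = ⟪cR T w z Y, v⟫ := by
  unfold sg
  have e1 : ⟪XX T w z Y, fderiv ℝ w Y v⟫ = 0 := by
    unfold XX
    rw [← starProjection_bx, inner_star, hw.star_fderiv, inner_zero_right]
  rw [inner_PS, hw.PS_D0, D0_apply, hw.adj_fderiv_star, hw.fderiv_star, sub_zero, inner_add_right,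
    ← inner_star, hw.star_XX, e1, add_zero]
  rfl

/-- `σ = J₀^* c` -/
lemma adj_J0_cR (hw : Ref T w ε κ) (z Y : E) : adj (J0 w Y) (cR T w z Y) = sg T w z Y := by
  refine ext_inner_right ℝ fun v => ?_
  rw [inner_adj_left, ← hw.inner_sg_D0, D0_J0]

lemma star_cR (hw : Ref T w ε κ) (z Y : E) : T.starProjection (cR T w z Y) = cR T w z Y := by
  unfold cR
  rw [starProjection_bx]

lemma inner_cR_co (hw : Ref T w ε κ) (z Y v : E) : ⟪cR T w z Y, co T v⟫ = 0 := by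
  rw [← hw.star_cR, inner_star, star_co, inner_zero_right]

lemma PS_sg (z Y : E) : PS T w Y (sg T w z Y) = sg T w z Y := PS_self _ _

lemma gm_eq (hw : Ref T w ε κ) (z Y : E) :
    gm T w z Y = T.starProjection (J0 w Y (XX T w z Y)) := by
  unfold gm sg; rw [hw.J0_PS]

lemma star_gm (hw : Ref T w ε κ) (z Y : E) : T.starProjection (gm T w z Y) = gm T w z Y := by
  rw [hw.gm_eq, star_self]

lemma D0_gm (z Y : E) : D0 w Y (gm T w z Y) = sg T w z Y := by
  unfold gm; rw [D0_J0]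

/-- `⟪c, grad_g R⟫ = |σ|²` -/
lemma inner_cR_gm (hw : Ref T w ε κ) (z Y : E) :
    ⟪cR T w z Y, gm T w z Y⟫ = ‖sg T w z Y‖ ^ 2 := by
  rw [← hw.inner_sg_D0, D0_gm, real_inner_self_eq_norm_sq]

/-- Pythagoras -/
lemma norm_sq_sg_add (z Y : E) :
    ‖sg T w z Y‖ ^ 2 + ‖nX T w z Y‖ ^ 2 = ‖XX T w z Y‖ ^ 2 := by
  have h1 := inner_proj_self (S := planeOf T w Y) (XX T w z Y)
  have h2 := inner_star_self (planeOf T w Y) (XX T w z Y)
  have h3 : ‖sg T w z Y‖ ^ 2 = ⟪XX T w z Y, (planeOf T w Y).starProjection (XX T w z Y)⟫ := h2.symm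
  have h4 : ‖nX T w z Y‖ ^ 2 = ‖XX T w z Y - (planeOf T w Y).starProjection (XX T w z Y)‖ ^ 2 := rfl
  rw [h3, h4, h1]; ring

/-- `|σ|² = vp ‖XX‖²` -/
lemma norm_sq_sg (z Y : E) : ‖sg T w z Y‖ ^ 2 = vp T w z Y * ‖XX T w z Y‖ ^ 2 := by
  have h1 := norm_sq_sg_add (T := T) (w := w) z Y
  unfold vp
  rcases eq_or_ne (‖XX T w z Y‖ ^ 2) 0 with h | h
  · rw [h] at h1 ⊢
    nlinarith [sq_nonneg ‖sg T w z Y‖, sq_nonneg ‖nX T w z Y‖]
  · rw [sub_mul, one_mul, div_mul_cancel₀ _ h]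
    linarith

lemma norm_D0_apply_le (hw : Ref T w ε κ) (hε : ε ≤ 1 / 16) (Y v : E) :
    ‖D0 w Y v‖ ≤ 9 / 8 * ‖v‖ := by
  rw [D0_apply]
  have h1 : ‖fderiv ℝ w Y v‖ ≤ 1 / 16 * ‖v‖ := (hw.norm_fderiv_apply_le Y v).trans (by gcongr)
  have h2 : ‖adj (fderiv ℝ w Y) v‖ ≤ 1 / 16 * ‖v‖ :=
    (hw.norm_adj_fderiv_apply_le Y v).trans (by gcongr)
  calc _ ≤ ‖v‖ + ‖fderiv ℝ w Y v‖ + ‖adj (fderiv ℝ w Y) v‖ :=
      (norm_sub_le _ _).trans (by gcongr; exact norm_add_le _ _)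
    _ ≤ ‖v‖ + 1 / 16 * ‖v‖ + 1 / 16 * ‖v‖ := by gcongr
    _ = _ := by ring

/-- lower bound of the tangential part -/
lemma norm_bx_le_sg (hw : Ref T w ε κ) (hε : ε ≤ 1 / 16) (z Y : E) :
    3 / 4 * ‖bx T z Y‖ ≤ ‖sg T w z Y‖ := by
  have h1 : ⟪sg T w z Y, D0 w Y (bx T z Y)⟫ = ⟪cR T w z Y, bx T z Y⟫ := hw.inner_sg_D0 z Y _
  have h2 : ⟪cR T w z Y, bx T z Y⟫ = ‖bx T z Y‖ ^ 2 := by
    unfold cR
    rw [real_inner_self_eq_norm_sq]
  have h3 : ⟪sg T w z Y, D0 w Y (bx T z Y)⟫ ≤ ‖sg T w z Y‖ * (9 / 8 * ‖bx T z Y‖) :=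
    (real_inner_le_norm _ _).trans (by gcongr; exact hw.norm_D0_apply_le hε _ _)
  rw [h1, h2] at h3
  rcases (norm_nonneg (bx T z Y)).eq_or_lt with h | h
  · rw [← h]; simp
  · have h4 : ‖bx T z Y‖ ≤ 9 / 8 * ‖sg T w z Y‖ := by
      have : ‖bx T z Y‖ * ‖bx T z Y‖ ≤ ‖bx T z Y‖ * (9 / 8 * ‖sg T w z Y‖) := by
        nlinarith
      exact le_of_mul_le_mul_left this h
    linarith

/-- `vp` is between `1/2` and `1` -/
lemma vp_le_one (z Y : E) : vp T w z Y ≤ 1 := by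
  unfold vp
  have : 0 ≤ ‖nX T w z Y‖ ^ 2 / ‖XX T w z Y‖ ^ 2 := by positivity
  linarith

lemma half_le_vp (hw : Ref T w ε κ) (hε : ε ≤ 1 / 16) (z Y : E) : 1 / 2 ≤ vp T w z Y := by
  rcases eq_or_ne (‖XX T w z Y‖ ^ 2) 0 with h | h
  · unfold vp; rw [h, div_zero]; norm_num
  · have h1 := norm_sq_sg (T := T) (w := w) z Y
    have h2 := hw.norm_bx_le_sg hε z Y
    have h4 : 0 < ‖XX T w z Y‖ ^ 2 := lt_of_le_of_ne (sq_nonneg _) h.symm
    have h6 : (3 / 4 * ‖XX T w z Y‖) ^ 2 ≤ ‖sg T w z Y‖ ^ 2 := by gcongr; exact h2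
    rw [h1, mul_pow] at h6
    have h7 : (3 / 4 : ℝ) ^ 2 ≤ vp T w z Y := le_of_mul_le_mul_right h6 h4
    linarith

end Ref

end Vale.Agent.P214.FM
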