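import Vale.Agent.P214.FM.Ode
import Vale.Agent.P214.ODEF.BulkF
import Vale.Agent.P214.CST.Jac
import Vale.Agent.P214.AREA.Jac
import Mathlib.Analysis.Calculus.LineDeriv.IntegrationByParts

/-!
# P214, block FM: the reference graph

* `fderiv_areaEl` : `D areaEl v = areaEl * tr (Gi A * A^* * D²w v)`;
* `setIntegral_tr_fderiv` : `∫_T tr (Dξ ∘ p) dμH[m] = 0` for base compact `C¹` fields;
* `setIntegral_divg` : `∫_T divg ξ * areaEl = 0` for tangential fields;
* `graph_stat` : the graph of `w` is stationary.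
-/

open Set Filter Topology MeasureTheory Metric
open scoped RealInnerProductSpace ContDiff

set_option linter.all false

namespace Vale.Agent.P214.FM

open FV ODE

section det

variable {E : Type*} [NormedAddCommGroup E] [InnerProductSpace ℝ E] [FiniteDimensional ℝ E]

/-- matrix coefficients -/
noncomputable def mx (L : E →L[ℝ] E) : Fin (Module.finrank ℝ E) → Fin (Module.finrank ℝ E) → ℝ :=
  fun i j => ⟪stdOrthonormalBasis ℝ E i, L (stdOrthonormalBasis ℝ E j)⟫

lemma mx_eq (L : E →L[ℝ] E) : Matrix.of (mx L) =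
    LinearMap.toMatrix (stdOrthonormalBasis ℝ E).toBasis (stdOrthonormalBasis ℝ E).toBasis
      (L : E →ₗ[ℝ] E) := by
  ext i j
  rw [LinearMap.toMatrix_apply]
  simp [mx, OrthonormalBasis.repr_apply_apply]

lemma det_eq (L : E →L[ℝ] E) : LinearMap.det (L : E →ₗ[ℝ] E) = (Matrix.of (mx L)).det := by
  rw [mx_eq, LinearMap.det_toMatrix]

lemma contDiff_mx {n : ℕ∞} {L : E → E →L[ℝ] E} (hL : ContDiff ℝ n L) :
    ContDiff ℝ n fun y => mx (L y) := by
  refine contDiff_pi.2 fun i => contDiff_pi.2 fun j => ?_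
  exact contDiff_const.inner ℝ (hL.clm_apply contDiff_const)

lemma contDiff_detL {n : ℕ∞} {L : E → E →L[ℝ] E} (hL : ContDiff ℝ n L) :
    ContDiff ℝ n fun y => LinearMap.det (L y : E →ₗ[ℝ] E) := by
  simp only [det_eq]
  exact ((CST.contDiff_det _).of_le (WithTop.coe_le_coe.2 le_top)).comp (contDiff_mx hL)

lemma tr_eq_trace (L : E →L[ℝ] E) : tr L = Matrix.trace (Matrix.of (mx L)) := by
  unfold tr
  rw [LinearMap.trace_eq_matrix_trace ℝ (stdOrthonormalBasis ℝ E).toBasis, mx_eq]

lemma mx_comp (L M : E →L[ℝ] E) : Matrix.of (mx (L.comp M)) = Matrix.of (mx L) * Matrix.of (mx M) := by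
  rw [mx_eq, mx_eq, mx_eq]
  exact LinearMap.toMatrix_comp (stdOrthonormalBasis ℝ E).toBasis (stdOrthonormalBasis ℝ E).toBasis
    (stdOrthonormalBasis ℝ E).toBasis (L : E →ₗ[ℝ] E) (M : E →ₗ[ℝ] E)

lemma mx_id : Matrix.of (mx (ContinuousLinearMap.id ℝ E)) = 1 := by
  rw [mx_eq]
  exact LinearMap.toMatrix_id (stdOrthonormalBasis ℝ E).toBasis

/-- **Jacobi's formula** -/
lemma hasDerivAt_detL {L : ℝ → E →L[ℝ] E} {L' M : E →L[ℝ] E} {t : ℝ} (hL : HasDerivAt L L' t)
    (hM : M * L t = 1) :
    HasDerivAt (fun s => LinearMap.det (L s : E →ₗ[ℝ] E))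
      (LinearMap.det (L t : E →ₗ[ℝ] E) * tr (M * L')) t := by
  have h1 : Matrix.of (mx M) * Matrix.of (mx (L t)) = 1 := by
    rw [← mx_comp]
    have : M.comp (L t) = ContinuousLinearMap.id ℝ E := hM
    rw [this, mx_id]
  have h2 : (Matrix.of (mx (L t))).det ≠ 0 := by
    intro h
    have := congrArg Matrix.det h1
    rw [Matrix.det_mul, h, mul_zero, Matrix.det_one] at this
    exact zero_ne_one this
  have h3 : (Matrix.of (mx (L t)))⁻¹ = Matrix.of (mx M) := Matrix.inv_eq_left_inv h1
  have h4 := CST.hasDerivAt_det (M := fun s => Matrix.of (mx (L s))) (M' := Matrix.of (mx L'))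
    (t := t) (fun i j => by
      have h5 : HasDerivAt (fun s => L s (stdOrthonormalBasis ℝ E j))
          (L' (stdOrthonormalBasis ℝ E j)) t := by
        simpa using hL.clm_apply (hasDerivAt_const t (stdOrthonormalBasis ℝ E j))
      exact (hasDerivAt_const t _).inner ℝ h5 |>.congr_deriv (by simp [mx])) h2
  rw [h3, ← mx_comp, ← tr_eq_trace] at h4
  simp only [det_eq]
  exact h4

end det

section div

variable {E : Type*} [NormedAddCommGroup E] [InnerProductSpace ℝ E] [FiniteDimensional ℝ E]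

/-- the trace on a subspace in an isometric parametrisation -/
lemma tr_comp_param {m : ℕ} {T : Submodule ℝ E} {ι : EuclideanSpace ℝ (Fin m) →ₗᵢ[ℝ] E}
    (hι : ∀ z, T.starProjection z = ι (ContinuousLinearMap.adjoint ι.toContinuousLinearMap z))
    (L : E →L[ℝ] E) :
    tr (L.comp T.starProjection) = ∑ i, ⟪ι (EuclideanSpace.single i 1), L (ι (EuclideanSpace.single i 1))⟫ := by
  have h1 : ∀ z, T.starProjection z = ∑ i, ⟪ι (EuclideanSpace.single i 1), z⟫ • ι (EuclideanSpace.single i (1:ℝ)) := by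
    intro z
    set y := ContinuousLinearMap.adjoint ι.toContinuousLinearMap z with hy
    have h2 : y = ∑ i, ⟪ι (EuclideanSpace.single i 1), z⟫ • EuclideanSpace.single i (1:ℝ) := by
      conv_lhs => rw [← (EuclideanSpace.basisFun (Fin m) ℝ).sum_repr' y]
      refine Finset.sum_congr rfl fun i _ => ?_
      rw [EuclideanSpace.basisFun_apply, hy, ContinuousLinearMap.adjoint_inner_right]
      rfl
    rw [hι, ← hy, h2, map_sum]
    refine Finset.sum_congr rfl fun i _ => ?_
    rw [map_smul]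
  have h3 : L.comp T.starProjection = ∑ i, (innerSL ℝ (ι (EuclideanSpace.single i (1:ℝ)))).smulRight
      (L (ι (EuclideanSpace.single i (1:ℝ)))) := by
    ext z
    rw [ContinuousLinearMap.comp_apply, h1, map_sum, ContinuousLinearMap.sum_apply]
    refine Finset.sum_congr rfl fun i _ => ?_
    rw [map_smul]
    rfl
  rw [h3]
  have h4 : ∀ f : Fin m → (E →L[ℝ] E), tr (∑ i, f i) = ∑ i, tr (f i) := by
    intro f
    have := map_sum (LinearMap.trace ℝ E) (fun i => (f i : E →ₗ[ℝ] E)) Finset.univ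
    unfold tr
    rw [← this]
    congr 1
    ext z
    simp
  rw [h4]
  refine Finset.sum_congr rfl fun i _ => ?_
  rw [tr_smulRight]
  rfl

lemma integral_fderiv_zero {F : Type*} [NormedAddCommGroup F] [NormedSpace ℝ F]
    [FiniteDimensional ℝ F] [MeasurableSpace F] [BorelSpace F] (μ : Measure F)
    [μ.IsAddHaarMeasure] {f : F → ℝ} (hf : ContDiff ℝ 1 f) (hc : HasCompactSupport f) (v : F) :
    ∫ x, fderiv ℝ f x v ∂μ = 0 := by
  have h1 : Integrable (fun x => fderiv ℝ f x v) μ :=
    ((hf.continuous_fderiv (by norm_num)).clm_apply continuous_const).integrable_of_hasCompactSupport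
      (hc.fderiv_apply ℝ v)
  have h2 := integral_mul_fderiv_eq_neg_fderiv_mul_of_integrable (𝕜 := ℝ) (μ := μ)
    (f := f) (g := fun _ : F => (1:ℝ)) (v := v) (by simpa using h1) (by simp)
    (by simpa using hf.continuous.integrable_of_hasCompactSupport hc)
    (fun x _ => hf.differentiable (by norm_num) x) (fun x _ => differentiableAt_const _)
  simp only [fderiv_fun_const, Pi.zero_apply, ContinuousLinearMap.zero_apply, mul_zero,
    integral_zero, mul_one] at h2
  linarith

variable [MeasurableSpace E] [BorelSpace E]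

/-- integrals over a subspace -/
lemma setIntegral_param {m : ℕ} {T : Submodule ℝ E} {ι : EuclideanSpace ℝ (Fin m) →ₗᵢ[ℝ] E}
    (hr : range ι = (T : Set E)) {W : Type*} [NormedAddCommGroup W] [NormedSpace ℝ W] (f : E → W) :
    ∫ x in (T : Set E), f x ∂μH[m] = ∫ x, f (ι x) ∂(μH[m] : Measure (EuclideanSpace ℝ (Fin m))) := by
  have h1 : (μH[m] : Measure E).restrict (range ι) = Measure.map ι μH[m] :=
    (ι.isometry.map_hausdorffMeasure (Or.inl (Nat.cast_nonneg m))).symm
  rw [← hr, h1, ι.isometry.isClosedEmbedding.measurableEmbedding.integral_map]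

/-- **divergence theorem in the base plane** -/
theorem setIntegral_tr_fderiv {m : ℕ} {T : Submodule ℝ E} (hT : Module.finrank ℝ T = m)
    {G : Set E} {ξ : E → E} (hξ : ContDiff ℝ 1 ξ) (hc : BaseCpt T G ξ) :
    ∫ x in (T : Set E), tr ((fderiv ℝ ξ x).comp T.starProjection) ∂μH[m] = 0 := by
  obtain ⟨ι, hr, ha, hι⟩ := AREA.exists_param hT
  have hH := AREA.haar_euc m
  rw [setIntegral_param hr]
  have hc' : HasCompactSupport fun x => ξ (ι x) := by
    obtain ⟨K, hK, -, hK0⟩ := hc
    refine HasCompactSupport.intro (hK.image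
      (ContinuousLinearMap.adjoint ι.toContinuousLinearMap).continuous) fun x hx => ?_
    apply hK0
    intro h
    apply hx
    refine ⟨_, h, ?_⟩
    have h2 : T.starProjection (ι x) = ι x := by
      rw [Submodule.starProjection_eq_self_iff]
      have : ι x ∈ (T : Set E) := by rw [← hr]; exact ⟨x, rfl⟩
      exact this
    rw [h2, ha]
  have h1 : ∀ x, tr ((fderiv ℝ ξ (ι x)).comp T.starProjection) =
      ∑ i, fderiv ℝ (fun x => ⟪ι (EuclideanSpace.single i 1), ξ (ι x)⟫) x
        (EuclideanSpace.single i 1) := by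
    intro x
    rw [tr_comp_param (m := m) hι]
    refine Finset.sum_congr rfl fun i _ => ?_
    have h3 : HasFDerivAt (fun x => ξ (ι x)) ((fderiv ℝ ξ (ι x)).comp ι.toContinuousLinearMap) x :=
      (hξ.differentiable (by norm_num) _).hasFDerivAt.comp x ι.toContinuousLinearMap.hasFDerivAt
    rw [((hasFDerivAt_const (ι (EuclideanSpace.single i (1:ℝ))) x).inner ℝ h3).fderiv]
    simp
  simp only [h1]
  rw [integral_finset_sum]
  · refine Finset.sum_eq_zero fun i _ => ?_
    refine integral_fderiv_zero _ ?_ ?_ _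
    · exact contDiff_const.inner ℝ (hξ.comp ι.toContinuousLinearMap.contDiff)
    · exact hc'.mono' (fun x hx => subset_tsupport _ fun h => hx (by simp [h]))
  · intro i _
    have h4 : ContDiff ℝ 1 fun x => ⟪ι (EuclideanSpace.single i (1:ℝ)), ξ (ι x)⟫ :=
      contDiff_const.inner ℝ (hξ.comp ι.toContinuousLinearMap.contDiff)
    refine ((h4.continuous_fderiv (by norm_num)).clm_apply
      continuous_const).integrable_of_hasCompactSupport ?_
    refine HasCompactSupport.fderiv_apply (𝕜 := ℝ) (hc'.mono'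
      (fun x hx => subset_tsupport _ fun h => hx (by simp [h]))) _

end div

section area

variable {E : Type*} [NormedAddCommGroup E] [InnerProductSpace ℝ E] [FiniteDimensional ℝ E]
  {T : Submodule ℝ E} {w : E → E} {ε κ : ℝ}

lemma star_def' (A : E →L[ℝ] E) : star A = adj A := rfl

lemma mx_star (A : E →L[ℝ] E) : Matrix.of (mx (star A)) = (Matrix.of (mx A)).conjTranspose := by
  ext i j
  rw [Matrix.conjTranspose_apply, Matrix.of_apply, Matrix.of_apply, star_def']
  unfold mx
  rw [inner_adj_right, real_inner_comm]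
  rfl

lemma det_G_pos (A : E →L[ℝ] E) :
    0 < LinearMap.det ((1 + star A * A : E →L[ℝ] E) : E →ₗ[ℝ] E) := by
  rw [det_eq]
  have h1 : Matrix.of (mx (1 + star A * A)) =
      1 + (Matrix.of (mx A)).conjTranspose * Matrix.of (mx A) := by
    rw [← mx_star, ← mx_comp, ← mx_id]
    ext i j
    simp only [Matrix.add_apply, Matrix.of_apply, mx]
    rw [← inner_add_right]
    rfl
  rw [h1]
  exact (Matrix.PosDef.add_posSemidef Matrix.PosDef.one
    (Matrix.posSemidef_conjTranspose_mul_self _)).det_pos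

lemma areaEl_pos (w : E → E) (y : E) : 0 < areaEl w y := Real.sqrt_pos.2 (det_G_pos _)

lemma Ref.contDiff_areaEl (hw : Ref T w ε κ) : ContDiff ℝ ∞ (areaEl w) := by
  have h1 : ContDiff ℝ ∞ fun y => (1 + star (fderiv ℝ w y) * fderiv ℝ w y : E →L[ℝ] E) :=
    contDiff_const.add (((adj (E := E)).contDiff.comp hw.smooth1).clm_comp hw.smooth1)
  exact (contDiff_detL h1).sqrt fun y => (det_G_pos _).ne'

lemma Gi_G (A : E →L[ℝ] E) : ODEF.Gi A * (1 + star A * A) = 1 :=
  Ring.inverse_mul_cancel _ (ODEF.isUnit_of_coercive _ one_pos (ODEF.coercive_G _))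

lemma G_Gi (A : E →L[ℝ] E) : (1 + star A * A) * ODEF.Gi A = 1 :=
  Ring.mul_inverse_cancel _ (ODEF.isUnit_of_coercive _ one_pos (ODEF.coercive_G _))

lemma star_Gi (A : E →L[ℝ] E) : star (ODEF.Gi A) = ODEF.Gi A := by
  have h1 : (1 + star A * A) * star (ODEF.Gi A) = 1 := by
    have := congrArg star (Gi_G A)
    simpa using this
  calc star (ODEF.Gi A) = (ODEF.Gi A * (1 + star A * A)) * star (ODEF.Gi A) := by
        rw [Gi_G, one_mul]
    _ = ODEF.Gi A * ((1 + star A * A) * star (ODEF.Gi A)) := mul_assoc _ _ _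
    _ = ODEF.Gi A := by rw [h1, mul_one]

lemma tr_Gi_symm (A B : E →L[ℝ] E) : tr (ODEF.Gi A * (star B * A)) = tr (ODEF.Gi A * adj A * B) := by
  have h1 : star (ODEF.Gi A) = ODEF.Gi A := star_Gi A
  have h2 : tr (star (ODEF.Gi A * (star B * A))) = tr (ODEF.Gi A * (star B * A)) := tr_adj _
  rw [← h2, star_mul, star_mul, star_star, h1]
  have h3 : star A * B * ODEF.Gi A = (star A * B).comp (ODEF.Gi A) := rfl
  rw [h3, tr_comp_comm]
  rfl

/-- **derivative of the area element** -/
theorem Ref.fderiv_areaEl (hw : Ref T w ε κ) (y v : E) : fderiv ℝ (areaEl w) y v =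
    areaEl w y * tr (ODEF.Gi (fderiv ℝ w y) * adj (fderiv ℝ w y) * D2 w y v) := by
  set A := fderiv ℝ w y with hA
  have h1 : HasDerivAt (fun s : ℝ => y + s • v) v 0 := by
    simpa using ((hasDerivAt_id (0:ℝ)).smul_const v).const_add y
  have h1' : HasFDerivAt (fderiv ℝ w) (D2 w y) (y + (0:ℝ) • v) := by
    rw [zero_smul, add_zero]; exact (hw.diff1 y).hasFDerivAt
  have h2 : HasDerivAt (fun s : ℝ => fderiv ℝ w (y + s • v)) (D2 w y v) 0 :=
    h1'.comp_hasDerivAt (0:ℝ) h1
  have h3 : HasDerivAt (fun s : ℝ => adj (fderiv ℝ w (y + s • v))) (adj (D2 w y v)) 0 :=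
    (adj (E := E)).hasFDerivAt.comp_hasDerivAt (0:ℝ) h2
  have h4 : HasDerivAt (fun s : ℝ => (1 + star (fderiv ℝ w (y + s • v)) * fderiv ℝ w (y + s • v) :
      E →L[ℝ] E)) (star (D2 w y v) * A + star A * D2 w y v) 0 := by
    have := (h3.clm_comp h2).const_add (1 : E →L[ℝ] E)
    refine this.congr_deriv ?_
    rw [zero_smul, add_zero]
    rfl
  have h5 := hasDerivAt_detL h4 (M := ODEF.Gi A) (by
    rw [zero_smul, add_zero]; exact Gi_G A)
  have h6 : tr (ODEF.Gi A * (star (D2 w y v) * A + star A * D2 w y v)) =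
      2 * tr (ODEF.Gi A * adj A * D2 w y v) := by
    rw [mul_add]
    rw [tr_add, tr_Gi_symm, ← mul_assoc]
    have : star A = adj A := rfl
    rw [this]
    ring
  rw [h6] at h5
  have h7 := h5.sqrt (det_G_pos _).ne'
  have h8 : HasDerivAt (fun s : ℝ => areaEl w (y + s • v)) (fderiv ℝ (areaEl w) y v) 0 := by
    have h9 : HasFDerivAt (areaEl w) (fderiv ℝ (areaEl w) y) (y + (0:ℝ) • v) := by
      rw [zero_smul, add_zero]
      exact (hw.contDiff_areaEl.differentiable (by simp) y).hasFDerivAt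
    exact h9.comp_hasDerivAt (0:ℝ) h1
  have h9 := h8.unique h7
  rw [h9]
  have h10 : (1 + star (fderiv ℝ w (y + (0:ℝ) • v)) * fderiv ℝ w (y + (0:ℝ) • v) : E →L[ℝ] E)
      = 1 + star A * A := by rw [zero_smul, add_zero]
  rw [h10]
  have h11 : areaEl w y = √(LinearMap.det ((1 + star A * A : E →L[ℝ] E) : E →ₗ[ℝ] E)) := rfl
  rw [h11]
  set d := LinearMap.det ((1 + star A * A : E →L[ℝ] E) : E →ₗ[ℝ] E) with hd
  have hd0 : 0 < d := det_G_pos A
  have hs : √d * √d = d := Real.mul_self_sqrt hd0.le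
  have hs0 : √d ≠ 0 := (Real.sqrt_pos.2 hd0).ne'
  rw [div_eq_iff (by positivity)]
  linear_combination (-2 * tr (ODEF.Gi A * adj A * D2 w y v)) * hs

end area

section stat

variable {E : Type*} [NormedAddCommGroup E] [InnerProductSpace ℝ E] [FiniteDimensional ℝ E]
  [MeasurableSpace E] [BorelSpace E] {T : Submodule ℝ E} {w : E → E} {ε κ h₁ : ℝ} {m : ℕ}
  {G : Set E}

/-- the divergence of `√g ξ` -/
lemma Ref.tr_fderiv_smul_areaEl (hw : Ref T w ε κ) {ξ : E → E} (hξ : ContDiff ℝ 1 ξ)
    (hTξ : ∀ y, T.starProjection (ξ y) = ξ y) (x : E) :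
    tr ((fderiv ℝ (fun y => areaEl w y • ξ y) x).comp T.starProjection) =
      ODEF.divg w x (ξ x) (fderiv ℝ ξ x) * areaEl w x := by
  have h1 : HasFDerivAt ξ (fderiv ℝ ξ x) x := (hξ.differentiable (by norm_num) x).hasFDerivAt
  have h2 : HasFDerivAt (areaEl w) (fderiv ℝ (areaEl w) x) x :=
    (hw.contDiff_areaEl.differentiable (by simp) x).hasFDerivAt
  have h0 : fderiv ℝ (fun y => areaEl w y • ξ y) x =
      areaEl w x • fderiv ℝ ξ x + (fderiv ℝ (areaEl w) x).smulRight (ξ x) := (h2.smul h1).fderiv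
  rw [h0, ContinuousLinearMap.add_comp, tr_add, ContinuousLinearMap.smul_comp, tr_smul]
  have h3 : ((fderiv ℝ (areaEl w) x).smulRight (ξ x)).comp T.starProjection =
      ((fderiv ℝ (areaEl w) x).comp T.starProjection).smulRight (ξ x) := by
    ext v; rfl
  rw [h3, tr_smulRight, ContinuousLinearMap.comp_apply, hTξ, hw.fderiv_areaEl]
  have h4 : tr ((fderiv ℝ ξ x).comp T.starProjection) = tr (fderiv ℝ ξ x) := by
    rw [tr_comp_comm]
    exact congrArg tr (ODEF.star_base_deriv h1 hTξ)
  rw [h4]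
  unfold ODEF.divg
  ring

/-- `∫_T divg ξ √g = 0` -/
theorem Ref.setIntegral_divg (hw : Ref T w ε κ) (hT : Module.finrank ℝ T = m) {ξ : E → E}
    (hξ : ContDiff ℝ 1 ξ) (hc : BaseCpt T G ξ) (hTξ : ∀ y, T.starProjection (ξ y) = ξ y) :
    ∫ x in (T : Set E), ODEF.divg w x (ξ x) (fderiv ℝ ξ x) * areaEl w x ∂μH[m] = 0 := by
  rw [← setIntegral_tr_fderiv hT (G := G) (ξ := fun y => areaEl w y • ξ y)
    ((hw.contDiff_areaEl.of_le (by norm_cast)).smul hξ)
    (hc.comp_zero fun y hy => by simp [hy])]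
  refine integral_congr_ae (Eventually.of_forall fun x => ?_)
  exact (hw.tr_fderiv_smul_areaEl hξ hTξ x).symm

/-- `p J₀ = G⁻¹ (p + A^*)` -/
lemma Ref.star_J0 (hw : Ref T w ε κ) (y v : E) : T.starProjection (J0 w y v) =
    ODEF.Gi (fderiv ℝ w y) (T.starProjection v + adj (fderiv ℝ w y) v) := by
  have h0 : v = D0 w y (J0 w y v) := (D0_J0 w y v).symm
  set u := J0 w y v with hu
  have h1 : T.starProjection v + adj (fderiv ℝ w y) v =
      (1 + star (fderiv ℝ w y) * fderiv ℝ w y : E →L[ℝ] E) (T.starProjection u) := by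
    rw [h0, D0_apply]
    have h2 : (1 + star (fderiv ℝ w y) * fderiv ℝ w y : E →L[ℝ] E) (T.starProjection u) =
      T.starProjection u + adj (fderiv ℝ w y) (fderiv ℝ w y (T.starProjection u)) := rfl
    have h3 : adj (fderiv ℝ w y) (adj (fderiv ℝ w y) u) = 0 := by
      rw [← hw.star_adj_fderiv y u, hw.adj_fderiv_star]
    rw [h2, hw.fderiv_star, map_sub, map_add, hw.star_fderiv, hw.star_adj_fderiv, map_sub, map_add,
      h3]
    abel
  rw [h1]
  exact (congrArg (fun L : E →L[ℝ] E => L (T.starProjection u)) (Gi_G (fderiv ℝ w y))).symm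

/-- the first variation of the graph is a divergence -/
lemma Adm.tr_PS_eq (H : Adm T w ε κ h₁) (hmin : MinimalOver T w G) {X : E → E}
    (hX : ContDiff ℝ 1 X) {y : E} (hy : T.starProjection y ∈ G) :
    tr ((fderiv ℝ X (y + w y)).comp (PS T w y)) =
      ODEF.divg w y (T.starProjection (J0 w y (X (y + w y))))
        (fderiv ℝ (fun y => T.starProjection (J0 w y (X (y + w y)))) y) := by
  have hw := H.ref
  set ξ : E → E := fun y => J0 w y (X (y + w y)) with hξ
  set A := fderiv ℝ w y with hA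
  have hg : HasFDerivAt (fun y => y + w y) (ContinuousLinearMap.id ℝ E + A) y :=
    (hasFDerivAt_id y).add (hw.diff y).hasFDerivAt
  have hXd : HasFDerivAt (fun y => X (y + w y))
      ((fderiv ℝ X (y + w y)).comp (ContinuousLinearMap.id ℝ E + A)) y :=
    (hX.differentiable (by norm_num) _).hasFDerivAt.comp y hg
  have hξd : DifferentiableAt ℝ ξ y :=
    (hw.contDiff_J0.differentiable (by simp) y).clm_apply hXd.differentiableAt
  have hD0 : HasFDerivAt (fun y => D0 w y (ξ y))
      ((D0 w y).comp (fderiv ℝ ξ y) + (fderiv ℝ (D0 w) y).flip (ξ y)) y :=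
    (hw.contDiff_D0.differentiable (by simp) y).hasFDerivAt.clm_apply hξd.hasFDerivAt
  have he : (fun y => D0 w y (ξ y)) = fun y => X (y + w y) := by
    funext y; exact D0_J0 w y _
  rw [he] at hD0
  have hu := hD0.unique hXd
  have hu' : ∀ v, D0 w y (fderiv ℝ ξ y v) + Kd w y v (ξ y) = fderiv ℝ X (y + w y) (v + A v) := by
    intro v
    have := congrArg (fun L : E →L[ℝ] E => L v) hu
    simp only [ContinuousLinearMap.add_apply, ContinuousLinearMap.comp_apply,
      ContinuousLinearMap.flip_apply, ContinuousLinearMap.id_apply] at this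
    rw [hw.fderiv_D0] at this
    exact this
  have h1 : (fderiv ℝ X (y + w y)).comp (PS T w y) =
      (D0 w y).comp ((fderiv ℝ ξ y).comp (T.starProjection.comp (J0 w y))) +
        ((D2 w y (ξ y)).comp (T.starProjection.comp (J0 w y)) -
          (Hw w y (ξ y)).comp (T.starProjection.comp (J0 w y))) := by
    ext v
    show fderiv ℝ X (y + w y) (PS T w y v) = D0 w y (fderiv ℝ ξ y (T.starProjection (J0 w y v))) +
      (D2 w y (ξ y) (T.starProjection (J0 w y v)) - Hw w y (ξ y) (T.starProjection (J0 w y v)))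
    rw [hw.PS_eq]
    set u := T.starProjection (J0 w y v) with hu1
    have hu2 : T.starProjection u = u := star_self _ _
    have h2 : D0 w y u = u + A u := by
      rw [D0_apply]
      have : adj (fderiv ℝ w y) u = 0 := by rw [← hu2, hw.adj_fderiv_star]
      rw [this, sub_zero]
    rw [h2, ← hu' u, hw.D2_symm y (ξ y) u]
    rfl
  have hpJ : T.starProjection.comp (J0 w y) = (ODEF.Gi A).comp (T.starProjection + adj A) := by
    ext v; exact hw.star_J0 y v
  have h3 : tr ((D0 w y).comp ((fderiv ℝ ξ y).comp (T.starProjection.comp (J0 w y)))) =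
      tr (fderiv ℝ (fun y => T.starProjection (ξ y)) y) := by
    have h4 : (fderiv ℝ (fun y => T.starProjection (ξ y)) y) =
        T.starProjection.comp (fderiv ℝ ξ y) :=
      (T.starProjection.hasFDerivAt.comp y hξd.hasFDerivAt).fderiv
    rw [h4, tr_comp_comm (D0 w y), ← tr_comp_comm (fderiv ℝ ξ y)]
    congr 1
    ext v
    show fderiv ℝ ξ y (T.starProjection (J0 w y (D0 w y v))) = _
    rw [J0_D0]
    rfl
  have h5 : tr ((D2 w y (ξ y)).comp (T.starProjection.comp (J0 w y))) =
      tr (ODEF.Gi A * adj A * D2 w y (T.starProjection (ξ y))) := by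
    rw [hpJ, tr_comp_comm, mul_assoc]
    have : D2 w y (T.starProjection (ξ y)) = D2 w y (ξ y) := by
      ext v; exact hw.D2_star_left y _ _
    rw [this]
    congr 1
    ext v
    show ODEF.Gi A (T.starProjection (D2 w y (ξ y) v) + adj A (D2 w y (ξ y) v)) =
      ODEF.Gi A (adj A (D2 w y (ξ y) v))
    rw [hw.star_D2, zero_add]
  have h6 : tr ((Hw w y (ξ y)).comp (T.starProjection.comp (J0 w y))) = 0 := by
    rw [hpJ, tr_comp_comm]
    have h7 : ((ODEF.Gi A).comp (T.starProjection + adj A)).comp (Hw w y (ξ y)) =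
        ODEF.Gi A * Hw w y (ξ y) := by
      ext v
      show ODEF.Gi A (T.starProjection (Hw w y (ξ y) v) + adj A (Hw w y (ξ y) v)) =
        ODEF.Gi A (Hw w y (ξ y) v)
      have h8 : adj A (Hw w y (ξ y) v) = 0 := by
        rw [← hw.star_Hw y (ξ y) v, hA, hw.adj_fderiv_star]
      rw [h8, add_zero, hw.star_Hw]
    rw [h7]
    have := ODEF.tr_Gi_Hw H y (ξ y)
    rw [hmin y hy, inner_zero_right] at this
    exact this
  rw [h1, tr_add, tr_sub, h3, h5, h6, sub_zero]
  rfl

/-- **the graph of `w` is stationary** -/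
theorem Adm.graph_stat (H : Adm T w ε κ h₁) (hT : Module.finrank ℝ T = m)
    (hmin : MinimalOver T w G) {X : E → E} (hX : ContDiff ℝ 1 X) (hc : BaseCpt T G X) :
    ∫ x in (T : Set E), tr ((fderiv ℝ X (x + w x)).comp (PS T w x)) * areaEl w x ∂μH[m] = 0 := by
  have hw := H.ref
  set ξ : E → E := fun y => T.starProjection (J0 w y (X (y + w y))) with hξ
  have hξ1 : ContDiff ℝ 1 ξ := by
    have h1 : ContDiff ℝ 1 fun y => X (y + w y) :=
      hX.comp (contDiff_id.add (hw.smooth.of_le (by norm_cast)))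
    exact T.starProjection.contDiff.comp
      ((hw.contDiff_J0.of_le (by norm_cast)).clm_apply h1)
  obtain ⟨K, hK, hKG, hK0⟩ := hc
  have hb : ∀ y, T.starProjection (y + w y) = T.starProjection y := by
    intro y; rw [map_add, hw.perp, add_zero]
  have hξc : BaseCpt T G ξ := by
    refine ⟨K, hK, hKG, fun y hy => ?_⟩
    have : X (y + w y) = 0 := hK0 _ (by rw [hb]; exact hy)
    simp only [hξ, this, map_zero]
  rw [← hw.setIntegral_divg hT hξ1 hξc fun y => star_self _ _]
  refine integral_congr_ae (Eventually.of_forall fun x => ?_)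
  show tr ((fderiv ℝ X (x + w x)).comp (PS T w x)) * areaEl w x =
    ODEF.divg w x (ξ x) (fderiv ℝ ξ x) * areaEl w x
  congr 1
  by_cases hx : T.starProjection x ∈ K
  · exact H.tr_PS_eq hmin hX (hKG hx)
  · -- both sides vanish near `x`
    have hn : ∀ᶠ y in 𝓝 x, T.starProjection y ∉ K :=
      (hK.isClosed.isOpen_compl.preimage T.starProjection.continuous).mem_nhds hx
    have h1 : fderiv ℝ X (x + w x) = 0 := by
      have h2 : X =ᶠ[𝓝 (x + w x)] fun _ => 0 := by
        have : ∀ᶠ y in 𝓝 (x + w x), T.starProjection y ∉ K := by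
          refine (hK.isClosed.isOpen_compl.preimage T.starProjection.continuous).mem_nhds ?_
          show T.starProjection (x + w x) ∉ K
          rw [hb]; exact hx
        filter_upwards [this] with y hy using hK0 y hy
      rw [h2.fderiv_eq]; simp
    have h3 : ξ =ᶠ[𝓝 x] fun _ => 0 := by
      filter_upwards [hn] with y hy
      have : X (y + w y) = 0 := hK0 _ (by rw [hb]; exact hy)
      simp only [hξ, this, map_zero]
    have h4 : fderiv ℝ ξ x = 0 := by rw [h3.fderiv_eq]; simp
    have h5 : ξ x = 0 := h3.eq_of_nhds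
    rw [h1, h4, h5]
    unfold ODEF.divg
    rw [map_zero, mul_zero, ContinuousLinearMap.zero_comp, tr_zero]
    simp [tr_zero]

end stat


end Vale.Agent.P214.FM
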