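import Vale.Agent.P214.FM.Beta

/-!
# P214, block FM: exact identities in Fermi coordinates

* pointwise (in the slab): `⟪rh, Dm v⟫ = ⟪cR, v⟫`, `⟪rh, om⟫ = 0`, `⟪rh, ze⟫ = ‖XX‖²`,
  `⟪rh, xg⟫ = ‖sg‖² = vp ‖XX‖²`, `⟪om, D om (J v)⟫ = ⟪om, v⟫`;
* `Gd`: bookkeeping of locally bounded measurable functions;
* `CylF.radial`: `∫ ψ tr(DZ J P) + (2/t²) ψ' ⟪rh, P Z⟫ = 0` for every `C¹` field `Z`.
-/

open Set Filter Topology MeasureTheory Metric
open scoped RealInnerProductSpace ContDiff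

set_option linter.all false

namespace Vale.Agent.P214.FM

open FV ODE

variable {E : Type*} [NormedAddCommGroup E] [InnerProductSpace ℝ E] [FiniteDimensional ℝ E]
  [MeasurableSpace E] [BorelSpace E]

/-! ### pointwise identities -/

section pointwise

variable {T : Submodule ℝ E} {w : E → E} {ε κ h₁ : ℝ} {z : E}

lemma Ref.contDiff_om (hw : Ref T w ε κ) : ContDiff ℝ ∞ (om T w) := by
  unfold om
  exact (co T).contDiff.sub (((adj (E := E)).contDiff.comp hw.smooth1).clm_apply (co T).contDiff)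

lemma Ref.om_eq (hw : Ref T w ε κ) (Y : E) : om T w Y = D0 w Y (co T Y) := by
  unfold om
  rw [D0_apply, hw.fderiv_co, add_zero]

lemma Ref.om_eq' (hw : Ref T w ε κ) (Y : E) : om T w Y = Dm w Y (co T Y) (co T Y) := by
  rw [Dm_apply, hw.Hw_co, sub_zero, hw.om_eq]

lemma Ref.fderiv_om (hw : Ref T w ε κ) (Y v : E) :
    fderiv ℝ (om T w) Y v = D0 w Y (co T v) - Hw w Y (co T Y) v := by
  have h1 : HasFDerivAt (fun Y => adj (fderiv ℝ w Y)) (adj.comp (D2 w Y)) Y :=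
    ((adj (E := E)).hasFDerivAt (x := fderiv ℝ w Y)).comp Y (hw.diff1 Y).hasFDerivAt
  have h2 : HasFDerivAt (fun Y : E => co T Y) (co T) Y := (co T).hasFDerivAt
  have h3 : fderiv ℝ (om T w) Y = _ := (h2.sub (h1.clm_apply h2)).fderiv
  rw [h3, D0_apply, hw.fderiv_co, add_zero, Hw_apply]
  simp only [_root_.sub_apply, _root_.add_apply, ContinuousLinearMap.comp_apply,
    ContinuousLinearMap.flip_apply]
  abel

/-- `D Ψ - D om = D₀ p` -/
lemma Ref.Dm_sub_fderiv_om (hw : Ref T w ε κ) (Y v : E) :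
    Dm w Y (co T Y) v - fderiv ℝ (om T w) Y v = D0 w Y (T.starProjection v) := by
  rw [hw.fderiv_om, Dm_apply]
  have : v = T.starProjection v + co T v := (star_add_co T v).symm
  conv_lhs => rw [this]
  simp only [map_add, hw.Hw_star, hw.Hw_co, co_star, co_self, map_zero, zero_add, add_zero]
  abel

lemma Adm.Jm_Dm (H : Adm T w ε κ h₁) {Y : E} (hY : ‖co T Y‖ < h₁) (v : E) :
    Jm T w h₁ Y (Dm w Y (co T Y) v) = v := by
  rw [← H.ref.fderiv_Psi_eq hY]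
  exact congrArg (fun L : E →L[ℝ] E => L v) (H.Jm_comp Y)

lemma Adm.Dm_Jm (H : Adm T w ε κ h₁) {Y : E} (hY : ‖co T Y‖ < h₁) (v : E) :
    Dm w Y (co T Y) (Jm T w h₁ Y v) = v := by
  rw [← H.ref.fderiv_Psi_eq hY]
  exact congrArg (fun L : E →L[ℝ] E => L v) (H.comp_Jm Y)

/-- `om` is the exact gradient of `|om|²/2` -/
lemma Adm.inner_om_fderiv (H : Adm T w ε κ h₁) {Y : E} (hY : ‖co T Y‖ < h₁) (v : E) :
    ⟪om T w Y, fderiv ℝ (om T w) Y (Jm T w h₁ Y v)⟫ = ⟪om T w Y, v⟫ := by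
  have h1 := H.ref.Dm_sub_fderiv_om Y (Jm T w h₁ Y v)
  rw [H.Dm_Jm hY] at h1
  have h2 : fderiv ℝ (om T w) Y (Jm T w h₁ Y v) =
      v - D0 w Y (T.starProjection (Jm T w h₁ Y v)) := by rw [← h1]; abel
  rw [h2, inner_sub_right, H.ref.om_eq, real_inner_comm (D0 w Y (T.starProjection _)),
    H.ref.inner_D0_D0, sub_zero]

lemma Adm.inner_rh (H : Adm T w ε κ h₁) {Y : E} (hY : ‖co T Y‖ < h₁) (v : E) :
    ⟪rh T w h₁ z Y, Dm w Y (co T Y) v⟫ = ⟪cR T w z Y, v⟫ := by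
  unfold rh
  rw [inner_adj_left, H.Jm_Dm hY]

lemma Adm.inner_rh_om (H : Adm T w ε κ h₁) {Y : E} (hY : ‖co T Y‖ < h₁) :
    ⟪rh T w h₁ z Y, om T w Y⟫ = 0 := by
  rw [H.ref.om_eq', H.inner_rh hY, H.ref.inner_cR_co]

lemma Adm.eps_le (H : Adm T w ε κ h₁) : ε ≤ 1 / 16 := H.hε.trans eps0_le

lemma Adm.inner_rh_ze (H : Adm T w ε κ h₁) {Y : E} (hY : ‖co T Y‖ < h₁) (t : ℝ) :
    ⟪rh T w h₁ z Y, ze T w z t Y⟫ = ‖XX T w z Y‖ ^ 2 := by
  unfold ze
  rw [H.inner_rh hY, H.ref.inner_cR_be H.eps_le]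

lemma Adm.inner_rh_xg (H : Adm T w ε κ h₁) {Y : E} (hY : ‖co T Y‖ < h₁) :
    ⟪rh T w h₁ z Y, xg T w z Y⟫ = vp T w z Y * ‖XX T w z Y‖ ^ 2 := by
  unfold xg
  rw [H.inner_rh hY, H.ref.inner_cR_gm, Ref.norm_sq_sg]

lemma Ref.contDiff_Dm_apply (hw : Ref T w ε κ) {n : ℕ∞} {f : E → E} (hf : ContDiff ℝ n f) :
    ContDiff ℝ n (fun Y => Dm w Y (co T Y) (f Y)) := by
  have hn : ((n : ℕ∞) : WithTop ℕ∞) ≤ ∞ := WithTop.coe_le_coe.2 le_top
  have h1 : ContDiff ℝ n (fun Y => D0 w Y (f Y)) := (hw.contDiff_D0.of_le hn).clm_apply hf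
  have h2 : ContDiff ℝ n (fun Y => D2 w Y (f Y)) := (hw.smooth2.of_le hn).clm_apply hf
  have h3 : ContDiff ℝ n (fun Y => adj (D2 w Y (f Y))) := (adj (E := E)).contDiff.comp h2
  exact h1.sub (h3.clm_apply (co T).contDiff)

lemma Ref.contDiff_ze (hw : Ref T w ε κ) (hε : ε ≤ 1 / 16) (z : E) {t : ℝ} (ht : 0 < t) :
    ContDiff ℝ ∞ (ze T w z t) :=
  hw.contDiff_Dm_apply (n := ⊤) (hw.contDiff_be hε z ht)

lemma Ref.contDiff_xg (hw : Ref T w ε κ) (z : E) : ContDiff ℝ ∞ (xg T w z) :=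
  hw.contDiff_Dm_apply (n := ⊤) (hw.contDiff_gm z)

lemma Adm.contDiff_rh (H : Adm T w ε κ h₁) (z : E) : ContDiff ℝ ∞ (rh T w h₁ z) :=
  ((adj (E := E)).contDiff.comp H.contDiff_Jm).clm_apply (H.ref.contDiff_cR z)

end pointwise

/-! ### locally bounded measurable functions -/

/-- measurable and bounded on `{a < R²}` -/
structure Gd {F : Type*} [NormedAddCommGroup F] (a : E → ℝ) (ν : Measure E) (R : ℝ) (f : E → F) :
    Prop where
  meas : AEStronglyMeasurable f ν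
  bd : ∃ C, 0 ≤ C ∧ ∀ᵐ Y ∂ν, a Y < R ^ 2 → ‖f Y‖ ≤ C

namespace Gd

variable {F : Type*} [NormedAddCommGroup F] [NormedSpace ℝ F] {a : E → ℝ} {ν : Measure E} {R : ℝ}

lemma add {f g : E → F} (hf : Gd a ν R f) (hg : Gd a ν R g) : Gd a ν R (fun Y => f Y + g Y) := by
  obtain ⟨C, hC, h1⟩ := hf.bd
  obtain ⟨C', hC', h2⟩ := hg.bd
  refine ⟨hf.meas.add hg.meas, C + C', by positivity, ?_⟩
  filter_upwards [h1, h2] with Y h3 h4 h5
  exact (norm_add_le _ _).trans (add_le_add (h3 h5) (h4 h5))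

lemma neg {f : E → F} (hf : Gd a ν R f) : Gd a ν R (fun Y => -f Y) := by
  obtain ⟨C, hC, h1⟩ := hf.bd
  refine ⟨hf.meas.neg, C, hC, ?_⟩
  filter_upwards [h1] with Y h3 h5
  rw [norm_neg]; exact h3 h5

lemma sub {f g : E → F} (hf : Gd a ν R f) (hg : Gd a ν R g) : Gd a ν R (fun Y => f Y - g Y) := by
  simpa only [sub_eq_add_neg] using hf.add hg.neg

lemma const (c : F) : Gd a ν R (fun _ => c) :=
  ⟨aestronglyMeasurable_const, ‖c‖, norm_nonneg _, Eventually.of_forall fun _ _ => le_rfl⟩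

lemma smul {c : E → ℝ} {f : E → F} (hc : Gd a ν R c) (hf : Gd a ν R f) :
    Gd a ν R (fun Y => c Y • f Y) := by
  obtain ⟨C, hC, h1⟩ := hc.bd
  obtain ⟨C', hC', h2⟩ := hf.bd
  refine ⟨hc.meas.smul hf.meas, C * C', by positivity, ?_⟩
  filter_upwards [h1, h2] with Y h3 h4 h5
  rw [norm_smul]
  exact mul_le_mul (h3 h5) (h4 h5) (norm_nonneg _) hC

lemma mul {f g : E → ℝ} (hf : Gd a ν R f) (hg : Gd a ν R g) : Gd a ν R (fun Y => f Y * g Y) := by
  simpa only [smul_eq_mul] using hf.smul hg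

lemma norm {f : E → F} (hf : Gd a ν R f) : Gd a ν R (fun Y => ‖f Y‖) := by
  obtain ⟨C, hC, h1⟩ := hf.bd
  refine ⟨hf.meas.norm, C, hC, ?_⟩
  filter_upwards [h1] with Y h3 h5
  rw [norm_norm]; exact h3 h5

lemma pow {f : E → ℝ} (hf : Gd a ν R f) (n : ℕ) : Gd a ν R (fun Y => f Y ^ n) := by
  induction n with
  | zero => simpa using const (a := a) (ν := ν) (R := R) (1 : ℝ)
  | succ n ih => simpa only [pow_succ] using ih.mul hf

lemma inner {f g : E → E} (hf : Gd a ν R f) (hg : Gd a ν R g) :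
    Gd a ν R (fun Y => ⟪f Y, g Y⟫) := by
  obtain ⟨C, hC, h1⟩ := hf.bd
  obtain ⟨C', hC', h2⟩ := hg.bd
  refine ⟨hf.meas.inner hg.meas, C * C', by positivity, ?_⟩
  filter_upwards [h1, h2] with Y h3 h4 h5
  refine (norm_inner_le_norm _ _).trans ?_
  exact mul_le_mul (h3 h5) (h4 h5) (norm_nonneg _) hC

lemma clm_apply {L : E → E →L[ℝ] E} {f : E → E} (hL : Gd a ν R L) (hf : Gd a ν R f) :
    Gd a ν R (fun Y => L Y (f Y)) := by
  obtain ⟨C, hC, h1⟩ := hL.bd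
  obtain ⟨C', hC', h2⟩ := hf.bd
  refine ⟨aesm_clm_apply hL.meas hf.meas, C * C', by positivity, ?_⟩
  filter_upwards [h1, h2] with Y h3 h4 h5
  refine ((L Y).le_opNorm _).trans ?_
  exact mul_le_mul (h3 h5) (h4 h5) (norm_nonneg _) hC

lemma comp {L M : E → E →L[ℝ] E} (hL : Gd a ν R L) (hM : Gd a ν R M) :
    Gd a ν R (fun Y => (L Y).comp (M Y)) := by
  obtain ⟨C, hC, h1⟩ := hL.bd
  obtain ⟨C', hC', h2⟩ := hM.bd
  have hc : Continuous fun p : (E →L[ℝ] E) × (E →L[ℝ] E) => p.1.comp p.2 := by fun_prop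
  refine ⟨hc.comp_aestronglyMeasurable (hL.meas.prodMk hM.meas), C * C', by positivity, ?_⟩
  filter_upwards [h1, h2] with Y h3 h4 h5
  refine (ContinuousLinearMap.opNorm_comp_le _ _).trans ?_
  exact mul_le_mul (h3 h5) (h4 h5) (norm_nonneg _) hC

lemma tr {L : E → E →L[ℝ] E} (hL : Gd a ν R L) : Gd a ν R (fun Y => tr (L Y)) := by
  obtain ⟨C, hC, h1⟩ := hL.bd
  refine ⟨continuous_tr.comp_aestronglyMeasurable hL.meas, Module.finrank ℝ E * C, by positivity, ?_⟩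
  filter_upwards [h1] with Y h3 h5
  rw [Real.norm_eq_abs]
  refine (abs_tr_le _).trans ?_
  gcongr
  exact h3 h5

lemma integrable [IsFiniteMeasure ν] {f : E → ℝ} (hf : Gd a ν R f) {ψ : ℝ → ℝ} (hc : Continuous ψ)
    (hz : ∀ s, 1 ≤ s → ψ s = 0) (ha : AEStronglyMeasurable a ν) (ha0 : ∀ y, 0 ≤ a y) {t : ℝ}
    (ht : 0 < t) (htR : t ≤ R) : Integrable (fun Y => ψ (a Y / t ^ 2) * f Y) ν := by
  obtain ⟨C, hC, h1⟩ := hf.bd
  exact integrable_kernel hc hz ha ha0 hf.meas (by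
    filter_upwards [h1] with Y h2 h3 using h2 h3) ht htR

lemma bound {f : E → ℝ} (hf : Gd a ν R f) : ∃ C, ∀ᵐ Y ∂ν, a Y < R ^ 2 → |f Y| ≤ C := by
  obtain ⟨C, hC, h1⟩ := hf.bd
  exact ⟨C, h1⟩

end Gd

/-! ### the cylinder in Fermi coordinates -/

section cyl

variable {m : ℕ} {T : Submodule ℝ E} {w : E → E} {ε κ h₁ : ℝ} {G : Set E} {h : ℝ}
  {ν : Measure E} {P : E → E →L[ℝ] E} {z : E}

/-- `2R` as a function -/
noncomputable def aX (T : Submodule ℝ E) (w : E → E) (z Y : E) : ℝ := ‖XX T w z Y‖ ^ 2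

lemma aX_nonneg (Y : E) : 0 ≤ aX T w z Y := sq_nonneg _

lemma Ref.continuous_aX (hw : Ref T w ε κ) (z : E) : Continuous (aX T w z) :=
  (hw.contDiff_XX z).continuous.norm.pow 2

lemma Ref.norm_bx_lt (hw : Ref T w ε κ) {R : ℝ} (hR : 0 ≤ R) {Y : E} (hY : aX T w z Y < R ^ 2) :
    ‖bx T z Y‖ < R := by
  have h1 := hw.norm_bx_le_XX z Y
  unfold aX at hY
  exact lt_of_le_of_lt h1 (lt_of_pow_lt_pow_left₀ 2 hR hY)

lemma CylF.mem_of_lt (hC : CylF m T w h₁ G h ν P) (hw : Ref T w ε κ) {R : ℝ} (hR : 0 ≤ R)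
    (hG : BallIn T G z R) {Y : E} (hY : aX T w z Y < R ^ 2) : T.starProjection Y ∈ G :=
  hG _ (T.starProjection_apply_mem Y) (by
    rw [← bx_eq]; exact (hw.norm_bx_lt hR hY).le)

/-- a.e. point of the base ball lies in the slab -/
lemma CylF.slab_lt (hC : CylF m T w h₁ G h ν P) (hw : Ref T w ε κ) {R : ℝ} (hR : 0 ≤ R)
    (hG : BallIn T G z R) : ∀ᵐ Y ∂ν, aX T w z Y < R ^ 2 → ‖co T Y‖ ≤ h ∧ ‖co T Y‖ < h₁ := by
  filter_upwards [hC.slab] with Y hY hlt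
  have := hY (hC.mem_of_lt hw hR hG hlt)
  exact ⟨this, this.trans_lt hC.lt⟩

/-- continuous functions are locally bounded -/
lemma CylF.gd {F : Type*} [NormedAddCommGroup F] (hC : CylF m T w h₁ G h ν P) (hw : Ref T w ε κ)
    {R : ℝ} (hR : 0 ≤ R) (hG : BallIn T G z R) {f : E → F} (hf : Continuous f) :
    Gd (aX T w z) ν R f := by
  have hcpt : IsCompact {y : E | ‖bx T z y‖ ≤ R ∧ ‖co T y‖ ≤ h} := by
    refine Metric.isCompact_of_isClosed_isBounded ?_ ?_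
    · exact (isClosed_le (continuous_bx T z).norm continuous_const).inter
        (isClosed_le (co T).continuous.norm continuous_const)
    · refine (Metric.isBounded_closedBall (x := (0 : E))
        (r := R + ‖T.starProjection z‖ + h)).subset ?_
      rintro y ⟨h1, h2⟩
      rw [mem_closedBall_zero_iff]
      rw [bx_eq] at h1
      calc ‖y‖ = ‖(T.starProjection y - T.starProjection z) + T.starProjection z
            + co T y‖ := by rw [co_apply]; congr 1; abel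
        _ ≤ ‖(T.starProjection y - T.starProjection z) + T.starProjection z‖
            + ‖co T y‖ := norm_add_le _ _
        _ ≤ (‖T.starProjection y - T.starProjection z‖ + ‖T.starProjection z‖)
            + ‖co T y‖ := by gcongr; exact norm_add_le _ _
        _ ≤ R + ‖T.starProjection z‖ + h := by gcongr
  obtain ⟨C, hCb⟩ := hcpt.exists_bound_of_continuousOn hf.norm.continuousOn
  refine ⟨hf.aestronglyMeasurable, max C 0, le_max_right _ _, ?_⟩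
  filter_upwards [hC.slab_lt hw hR hG] with Y hY hlt
  have h1 := hCb Y ⟨(hw.norm_bx_lt hR hlt).le, (hY hlt).1⟩
  rw [norm_norm] at h1
  exact h1.trans (le_max_left _ _)

/-- the plane field is bounded -/
lemma CylF.gdP (hC : CylF m T w h₁ G h ν P) {a : E → ℝ} {R : ℝ} : Gd a ν R P := by
  refine ⟨hC.meas, 1, zero_le_one, ?_⟩
  filter_upwards [hC.proj] with Y hY _
  obtain ⟨S, -, hS⟩ := hY
  rw [hS]; exact S.starProjection_norm_le

/-- derivative of a radial profile -/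
lemma Ref.hasFDerivAt_prof (hw : Ref T w ε κ) {ψ ψ' : ℝ → ℝ} (hψ : Profile ψ ψ') (t : ℝ) (Y : E) :
    HasFDerivAt (fun Y => ψ (aX T w z Y / t ^ 2))
      ((ψ' (aX T w z Y / t ^ 2) * (2 / t ^ 2)) • innerSL ℝ (cR T w z Y)) Y := by
  have h1 : HasFDerivAt (fun Y => aX T w z Y / t ^ 2)
      ((t ^ 2)⁻¹ • ((2 : ℝ) • innerSL ℝ (cR T w z Y))) Y := by
    have := (hw.hasFDerivAt_normsq_XX z Y).const_mul ((t ^ 2)⁻¹)
    refine this.congr_of_eventuallyEq (Eventually.of_forall fun y => ?_)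
    simp only [aX, div_eq_inv_mul]
  have h2 := (hψ.der (aX T w z Y / t ^ 2)).comp_hasFDerivAt Y h1
  have h3 : HasFDerivAt (fun Y => ψ (aX T w z Y / t ^ 2))
      (ψ' (aX T w z Y / t ^ 2) • ((t ^ 2)⁻¹ • ((2 : ℝ) • innerSL ℝ (cR T w z Y)))) Y := h2
  rw [smul_smul, smul_smul] at h3
  convert h3 using 2
  ring

/-- **Radial test identity** for an arbitrary `C¹` field. -/
theorem CylF.radial (hC : CylF m T w h₁ G h ν P) (hw : Ref T w ε κ) {ψ ψ' : ℝ → ℝ}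
    (hψ : Profile ψ ψ') {Z : E → E} (hZ : ContDiff ℝ 1 Z) {t : ℝ} (ht : 0 < t)
    (hG : BallIn T G z t) :
    ∫ Y, (ψ (aX T w z Y / t ^ 2) * tr (((fderiv ℝ Z Y).comp (Jm T w h₁ Y)).comp (P Y)) +
      ψ' (aX T w z Y / t ^ 2) * ((2 / t ^ 2) * ⟪rh T w h₁ z Y, P Y (Z Y)⟫)) ∂ν = 0 := by
  have hcd : ContDiff ℝ 1 (fun Y => ψ (aX T w z Y / t ^ 2)) :=
    hψ.contDiff.comp ((((hw.contDiff_XX z).norm_sq ℝ).of_le
      (WithTop.coe_le_coe.2 le_top)).div_const _)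
  have hz : ∀ Y, t < ‖bx T z Y‖ → ψ (aX T w z Y / t ^ 2) = 0 := by
    intro Y hY
    refine hψ.zero _ ?_
    rw [one_le_div (by positivity)]
    unfold aX
    have := hw.norm_bx_le_XX z Y
    gcongr
    linarith
  have h1 := hC.stat (fun Y => ψ (aX T w z Y / t ^ 2) • Z Y) (hcd.smul hZ)
    (baseCpt_of_zero hG fun Y hY => by rw [hz Y hY, zero_smul])
  rw [← h1]
  refine integral_congr_ae (Eventually.of_forall fun Y => ?_)
  have h2 : fderiv ℝ (fun Y => ψ (aX T w z Y / t ^ 2) • Z Y) Y = _ :=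
    ((hw.hasFDerivAt_prof hψ t Y).smul (hZ.differentiable (by norm_num) Y).hasFDerivAt).fderiv
  simp only [h2]
  rw [ContinuousLinearMap.add_comp, ContinuousLinearMap.add_comp, tr_add,
    ContinuousLinearMap.smul_comp, ContinuousLinearMap.smul_comp, tr_smul, smulRight_comp,
    smulRight_comp, tr_smulRight]
  congr 1
  simp only [ContinuousLinearMap.comp_apply, _root_.smul_apply, innerSL_apply_apply, smul_eq_mul]
  unfold rh
  rw [inner_adj_left]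
  ring

end cyl

end Vale.Agent.P214.FM
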