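import Vale.Agent.P214.FM.Graph

/-!
# P214, block FM: the mass of the reference graph

`MSf = t^{-m} ∫_T K(|XX|²/t²) √g`, `MSf.hasDerivAt` : `t MSf' = t^{-m} ∫_T K (div_g be - m) √g`.
-/

open Set Filter Topology MeasureTheory Metric
open scoped RealInnerProductSpace ContDiff

set_option linter.all false

namespace Vale.Agent.P214.FM

open FV ODE

variable {E : Type*} [NormedAddCommGroup E] [InnerProductSpace ℝ E] [FiniteDimensional ℝ E]
  [MeasurableSpace E] [BorelSpace E] {T : Submodule ℝ E} {w : E → E} {ε κ h₁ : ℝ} {m : ℕ}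
  {G : Set E} {z : E} {t R : ℝ}

/-- the divergence defect of the base field `be` at the scale `t` -/
noncomputable def tau (m : ℕ) (T : Submodule ℝ E) (w : E → E) (z : E) (t : ℝ) (Y : E) : ℝ :=
  ODEF.divg w Y (be T w z t Y) (fderiv ℝ (be T w z t) Y) - m

/-- mass ratio of the reference graph -/
noncomputable def MSf (m : ℕ) (T : Submodule ℝ E) (w : E → E) (z : E) (K : ℝ → ℝ) (t : ℝ) : ℝ :=
  t ^ (-(m : ℤ)) * ∫ x in (T : Set E), K (aX T w z x / t ^ 2) * areaEl w x ∂μH[m]

/-- bounded subsets of `T` have finite measure -/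
lemma hausdorff_T_lt_top (hT : Module.finrank ℝ T = m) (c : E) (r : ℝ) :
    (μH[m] : Measure E).restrict (T : Set E) (closedBall c r) < ⊤ := by
  obtain ⟨ι, hr, ha, hι⟩ := AREA.exists_param hT
  have hH := AREA.haar_euc m
  have h1 : (μH[m] : Measure E).restrict (T : Set E) = Measure.map ι μH[m] := by
    rw [← hr]
    exact (ι.isometry.map_hausdorffMeasure (Or.inl (Nat.cast_nonneg m))).symm
  rw [h1, ι.isometry.isClosedEmbedding.measurableEmbedding.map_apply]
  have h2 : ι ⁻¹' closedBall c r ⊆ closedBall 0 (‖c‖ + r) := by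
    intro x hx
    rw [mem_closedBall_zero_iff]
    have h3 : ‖ι x - c‖ ≤ r := by rw [← dist_eq_norm]; exact hx
    calc ‖x‖ = ‖ι x‖ := (ι.norm_map x).symm
      _ = ‖c + (ι x - c)‖ := by congr 1; abel
      _ ≤ ‖c‖ + r := (norm_add_le _ _).trans (by gcongr)
  exact (measure_mono h2).trans_lt (isCompact_closedBall (0 : EuclideanSpace ℝ (Fin m)) _).measure_lt_top

/-- continuous functions with bounded base support are integrable on `T` -/
lemma integrableOn_T (hT : Module.finrank ℝ T = m) {f : E → ℝ} (hf : Continuous f) {c : E} {r : ℝ}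
    (h0 : ∀ x ∈ T, x ∉ closedBall c r → f x = 0) :
    IntegrableOn f (T : Set E) μH[m] := by
  have hTc : IsClosed (T : Set E) := T.closed_of_finiteDimensional
  have hfin : IsFiniteMeasure (((μH[m] : Measure E).restrict (T : Set E)).restrict (closedBall c r)) :=
    ⟨by rw [Measure.restrict_apply_univ]; exact hausdorff_T_lt_top hT c r⟩
  have h1 : IntegrableOn f (closedBall c r) ((μH[m] : Measure E).restrict (T : Set E)) := by
    obtain ⟨C, hC⟩ := (isCompact_closedBall c r).exists_bound_of_continuousOn hf.continuousOn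
    refine Integrable.mono' (integrable_const C) hf.aestronglyMeasurable ?_
    filter_upwards [ae_restrict_mem measurableSet_closedBall] with x hx using hC x hx
  refine h1.integrable_of_ae_notMem_eq_zero ?_
  filter_upwards [ae_restrict_mem hTc.measurableSet] with x hx hx2 using h0 x hx hx2

namespace Ref

lemma bx_base (z Y : E) : bx T z (T.starProjection Y) = bx T z Y := by
  unfold bx
  rw [map_sub, map_sub, star_self]

lemma XX_base (hw : Ref T w ε κ) (z Y : E) : XX T w z (T.starProjection Y) = XX T w z Y := by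
  unfold XX
  rw [bx_base]

lemma aX_base (hw : Ref T w ε κ) (z Y : E) : aX T w z (T.starProjection Y) = aX T w z Y := by
  unfold aX; rw [hw.XX_base]

lemma mem_closedBall_of_aX (hw : Ref T w ε κ) (hR : 0 ≤ R) {x : E} (hx : x ∈ T)
    (h : aX T w z x < R ^ 2) : x ∈ closedBall (T.starProjection z) R := by
  have h1 := hw.norm_bx_lt hR h
  rw [mem_closedBall, dist_eq_norm]
  have h2 : bx T z x = x - T.starProjection z := by
    unfold bx
    rw [map_sub, Submodule.starProjection_eq_self_iff.2 hx]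
  rw [← h2]; exact h1.le

lemma kern_zero {ψ : ℝ → ℝ} (hz : ∀ s, 1 ≤ s → ψ s = 0) (ht : 0 < t) {x : E}
    (h : ¬ aX T w z x < t ^ 2) : ψ (aX T w z x / t ^ 2) = 0 := by
  apply hz
  rw [le_div_iff₀ (by positivity), one_mul]
  exact not_lt.1 h

/-- integrability on `T` of kernel times continuous function -/
lemma integrableOn_kern (hw : Ref T w ε κ) (hT : Module.finrank ℝ T = m) {ψ : ℝ → ℝ}
    (hc : Continuous ψ) (hz : ∀ s, 1 ≤ s → ψ s = 0) {f : E → ℝ} (hf : Continuous f) (ht : 0 < t) :
    IntegrableOn (fun x => ψ (aX T w z x / t ^ 2) * f x) (T : Set E) μH[m] := by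
  refine integrableOn_T hT (c := T.starProjection z) (r := t)
    ((hc.comp ((hw.continuous_aX z).div_const _)).mul hf) fun x hx hx2 => ?_
  rw [kern_zero hz ht, zero_mul]
  exact fun h => hx2 (hw.mem_closedBall_of_aX ht.le hx h)

/-- `divg` in terms of `J₀` -/
lemma divg_eq (hw : Ref T w ε κ) (Y β : E) (b : E →L[ℝ] E) :
    ODEF.divg w Y β b = tr b + tr ((J0 w Y).comp (D2 w Y β)) := by
  unfold ODEF.divg
  congr 1
  have h1 : (D2 w Y β).comp T.starProjection = D2 w Y β := by
    ext v; exact hw.D2_star_right Y β v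
  have h2 : T.starProjection.comp (J0 w Y) = (ODEF.Gi (fderiv ℝ w Y)).comp
      (T.starProjection + adj (fderiv ℝ w Y)) := by
    ext v; exact hw.star_J0 Y v
  rw [← h1, ← ContinuousLinearMap.comp_assoc, tr_comp_comm ((J0 w Y).comp (D2 w Y β)),
    ← ContinuousLinearMap.comp_assoc, h2, h1]
  congr 1
  ext v
  show ODEF.Gi (fderiv ℝ w Y) (adj (fderiv ℝ w Y) (D2 w Y β v)) =
    ODEF.Gi (fderiv ℝ w Y) (T.starProjection (D2 w Y β v) + adj (fderiv ℝ w Y) (D2 w Y β v))
  rw [hw.star_D2, zero_add]

lemma tau_eq (hw : Ref T w ε κ) (z : E) (t : ℝ) : tau m T w z t = fun Y =>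
    tr (fderiv ℝ (be T w z t) Y) + tr ((J0 w Y).comp (D2 w Y (be T w z t Y))) - m := by
  funext Y; unfold tau; rw [hw.divg_eq]

lemma continuous_tau (hw : Ref T w ε κ) (hε : ε ≤ 1 / 16) (z : E) {t : ℝ} (ht : 0 < t) :
    Continuous (tau m T w z t) := by
  rw [hw.tau_eq]
  have h2 := hw.contDiff_be hε z ht
  refine ((continuous_tr.comp (h2.continuous_fderiv (by simp))).add ?_).sub continuous_const
  exact continuous_tr.comp (hw.contDiff_J0.continuous.clm_comp
    (hw.smooth2.continuous.clm_apply h2.continuous))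

/-- the radial divergence identity on the graph -/
lemma setIntegral_radial (hw : Ref T w ε κ) (hε : ε ≤ 1 / 16) (hT : Module.finrank ℝ T = m)
    {ψ ψ' : ℝ → ℝ} (hψ : Profile ψ ψ') (ht : 0 < t) :
    ∫ x in (T : Set E), (ψ (aX T w z x / t ^ 2) * (tau m T w z t x + m) +
      2 * (aX T w z x / t ^ 2) * ψ' (aX T w z x / t ^ 2)) * areaEl w x ∂μH[m] = 0 := by
  have hbe : ContDiff ℝ 1 (be T w z t) := (hw.contDiff_be hε z ht).of_le (by norm_cast)
  have hprof : ContDiff ℝ 1 fun Y => ψ (aX T w z Y / t ^ 2) := by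
    refine hψ.contDiff.comp (ContDiff.div_const ?_ _)
    exact ((hw.contDiff_XX z).norm_sq ℝ).of_le (by norm_cast)
  rw [← hw.setIntegral_divg hT (G := univ) (ξ := fun Y => ψ (aX T w z Y / t ^ 2) • be T w z t Y)
    (hprof.smul hbe) ?_ (fun y => by rw [map_smul, hw.star_be])]
  · refine integral_congr_ae (Eventually.of_forall fun x => ?_)
    show _ * _ = ODEF.divg w x (ψ (aX T w z x / t ^ 2) • be T w z t x) _ * _
    congr 1
    have h1 : fderiv ℝ (fun Y => ψ (aX T w z Y / t ^ 2) • be T w z t Y) x =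
        ψ (aX T w z x / t ^ 2) • fderiv ℝ (be T w z t) x +
          ((ψ' (aX T w z x / t ^ 2) * (2 / t ^ 2)) • innerSL ℝ (cR T w z x)).smulRight
            (be T w z t x) :=
      ((hw.hasFDerivAt_prof hψ t x).smul (hbe.differentiable (by norm_num) x).hasFDerivAt).fderiv
    rw [h1]
    unfold tau ODEF.divg
    rw [tr_add, tr_smul, tr_smulRight, map_smul, mul_smul_comm, tr_smul, _root_.smul_apply,
      innerSL_apply_apply, hw.inner_cR_be hε]
    unfold aX
    simp only [smul_eq_mul]
    field_simp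
    ring
  · refine ⟨closedBall (T.starProjection z) t, isCompact_closedBall _ _, subset_univ _,
      fun y hy => ?_⟩
    show ψ (aX T w z y / t ^ 2) • be T w z t y = 0
    rw [kern_zero hψ.zero ht, zero_smul]
    intro h
    apply hy
    rw [← hw.aX_base] at h
    exact hw.mem_closedBall_of_aX ht.le (T.starProjection_apply_mem y) h

/-- **exact ODE for the mass of the reference graph** -/
theorem hasDerivAt_MSf (hw : Ref T w ε κ) (hε : ε ≤ 1 / 16) (hT : Module.finrank ℝ T = m)
    {k k' K : ℝ → ℝ} (hk : Kern k k' K) (ht : 0 < t) :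
    HasDerivAt (MSf m T w z K)
      (t⁻¹ * (t ^ (-(m : ℤ)) * ∫ x in (T : Set E),
        K (aX T w z x / t ^ 2) * (tau m T w z t x * areaEl w x) ∂μH[m])) t := by
  have hTc : IsClosed (T : Set E) := T.closed_of_finiteDimensional
  set R := t + 1 with hR
  have hR0 : 0 ≤ R := by linarith
  set μ : Measure E := ((μH[m] : Measure E).restrict (T : Set E)).restrict
    (closedBall (T.starProjection z) R) with hμ
  haveI hfin : IsFiniteMeasure μ :=
    ⟨by rw [hμ, Measure.restrict_apply_univ]; exact hausdorff_T_lt_top hT _ _⟩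
  have hga := hw.contDiff_areaEl.continuous
  obtain ⟨C, hC⟩ := (isCompact_closedBall (T.starProjection z) R).exists_bound_of_continuousOn
    hga.continuousOn
  -- integrals over `T` are integrals with respect to `μ`
  have hrep : ∀ {ψ : ℝ → ℝ} (hz : ∀ s, 1 ≤ s → ψ s = 0) (f : E → ℝ) {s : ℝ} (hs : 0 < s)
      (hsR : s ≤ R), ∫ x in (T : Set E), ψ (aX T w z x / s ^ 2) * f x ∂μH[m] =
        ∫ x, ψ (aX T w z x / s ^ 2) * f x ∂μ := by
    intro ψ hz f s hs hsR
    rw [hμ]
    symm
    refine setIntegral_eq_integral_of_ae_compl_eq_zero ?_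
    filter_upwards [ae_restrict_mem hTc.measurableSet] with x hx hx2
    rw [kern_zero hz hs, zero_mul]
    intro h
    exact hx2 (closedBall_subset_closedBall hsR (hw.mem_closedBall_of_aX hs.le hx h))
  have key := hasDerivAt_scaled (ν := μ) hk.pK (hw.continuous_aX z).aestronglyMeasurable
    (fun x => aX_nonneg (T := T) (w := w) (z := z) x) (w := areaEl w) hga.aestronglyMeasurable
    (R := R) (C := C) (by
      rw [hμ]
      filter_upwards [ae_restrict_mem measurableSet_closedBall] with x hx _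
      have := hC x hx
      rwa [Real.norm_eq_abs] at this) ht (by linarith) (-(m : ℤ))
  have hev : MSf m T w z K =ᶠ[𝓝 t]
      fun t => t ^ (-(m : ℤ)) * ∫ y, K (aX T w z y / t ^ 2) * areaEl w y ∂μ := by
    filter_upwards [Ioo_mem_nhds (show (0:ℝ) < t from ht) (show t < R by linarith)] with s hs
    unfold MSf
    rw [hrep hk.pK.zero _ hs.1 hs.2.le]
  refine (key.congr_of_eventuallyEq hev).congr_deriv ?_
  congr 2
  have h1 := hw.setIntegral_radial (z := z) hε hT hk.pK ht
  have hz2 : ∀ s, 1 ≤ s → (fun s : ℝ => ((-(m : ℤ) : ℤ) : ℝ) * K s - 2 * s * (-(k s) / 2)) s = 0 := by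
    intro s hs
    simp [hk.pK.zero s hs, hk.pk.zero s hs]
  rw [← hrep hz2 _ ht (by linarith)]
  have i1 : IntegrableOn (fun x => K (aX T w z x / t ^ 2) * (tau m T w z t x * areaEl w x))
      (T : Set E) μH[m] :=
    hw.integrableOn_kern hT hk.pK.continuous hk.pK.zero ((hw.continuous_tau hε z ht).mul hga) ht
  have i2 : IntegrableOn (fun x => (fun s : ℝ => ((-(m : ℤ) : ℤ) : ℝ) * K s - 2 * s * (-(k s) / 2))
      (aX T w z x / t ^ 2) * areaEl w x) (T : Set E) μH[m] := by
    refine hw.integrableOn_kern hT ?_ hz2 hga ht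
    exact (continuous_const.mul hk.pK.continuous).sub
      ((continuous_const.mul continuous_id).mul (hk.pk.continuous.neg.div_const 2))
  rw [← sub_eq_zero, ← integral_sub i2 i1, ← neg_eq_zero, ← integral_neg, ← h1]
  refine integral_congr_ae (Eventually.of_forall fun x => ?_)
  simp only [Int.cast_neg, Int.cast_natCast]
  ring

end Ref

end Vale.Agent.P214.FM
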